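import Vale.Agent.P139.H889.Fin4

/-!
Radial mode stability implies mode stability (X3): the final theorem.
-/

set_option linter.all false

namespace Vale.Agent.P139.H889

open MeasureTheory Set Metric Filter Topology MvPolynomial
open Vale.Agent.P225 (E sig sph gr divg pev pgrad plap Harm flux)
open Vale.Agent.P139.BU (IsProfile LL1 LL2 IsMode BddC ModeStable RL1 RL2 RadAdm RadMode RadStable
  W1 W2 aa phaseMode timeMode)
open scoped ContDiff ComplexConjugate

variable {n : ℕ}

section

variable {m K : ℕ} {w : ℝ} {Q : E n → ℂ} {q : ℝ → ℂ}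

theorem radMode_zero {l : ℕ} {lam : ℂ} {F G : ℝ → ℂ} (h : RadMode m l w q lam F G)
    (h0 : l = 0 → lam ≠ 0 ∧ lam ≠ 1) (h1 : l = 1 → lam ≠ 1 / 2) :
    ∀ r > 0, F r = 0 ∧ G r = 0 := by
  rcases h with ⟨a, b, _⟩ | ⟨a, b, _⟩ | ⟨a, b, _⟩ | h
  · exact absurd b (h0 a).1
  · exact absurd b (h1 a)
  · exact absurd b (h0 a).2
  · exact h

/-- the radial data of a profile -/
theorem profile_data [NeZero n] (hP : IsProfile n m w Q) (hq : ∀ x, Q x = q ‖x‖) :
    ∃ φ : ℝ → ℂ, Continuous φ ∧ (∀ r > 0, deriv q r = r * φ r) ∧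
      (∀ j x, BU.pd j Q x = (x j : ℂ) * φ ‖x‖) ∧
      (∀ x, BU.eul Q x = (‖x‖ : ℂ) ^ 2 * φ ‖x‖) ∧ Continuous Q ∧
      (Continuous (BU.eul Q)) ∧ (∀ j, Continuous (BU.pd j Q)) := by
  obtain ⟨H, hH, hQ⟩ := hP.radial
  obtain ⟨h1, h2⟩ := radial_derivs (n := n) (q := q) hH hQ hq
  have hQs : ContDiff ℝ ∞ Q := by
    have : Q = fun x => H (‖x‖ ^ 2) := funext hQ
    rw [this]
    exact hH.comp (contDiff_norm_sq ℝ)
  have hdH : Continuous (deriv H) := hH.continuous_deriv (by simp)
  refine ⟨fun s => 2 * deriv H (s ^ 2), continuous_const.mul (hdH.comp (continuous_pow 2)),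
    h1, ?_, ?_, hQs.continuous, ?_, ?_⟩
  · intro j x
    unfold BU.pd
    rw [h2]
    congr 2
    rw [EuclideanSpace.inner_single_right]
    simp
  · intro x
    unfold BU.eul
    rw [h2, real_inner_self_eq_norm_sq]
    push_cast
    ring
  · exact (hQs.continuous_fderiv (by simp)).clm_apply continuous_id
  · intro j
    exact (hQs.continuous_fderiv (by simp)).clm_apply continuous_const

theorem eig_moment [NeZero n] (hn : 2 ≤ n) (hK : 2 ≤ K) (hQ : Continuous Q)
    (hq : ∀ x, Q x = q ‖x‖) {f g : E n → ℂ} (hf : BddC K f) (hg : BddC K g) {f0 g0 : E n → ℂ}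
    (hf0 : Continuous f0) (hg0 : Continuous g0) {lam : ℂ}
    (e1 : ∀ x, LL1 m w Q f g x = lam * f x + f0 x)
    (e2 : ∀ x, LL2 m w Q f g x = lam * g x + g0 x) {l : ℕ} {h : MvPolynomial (Fin n) ℝ}
    (hh : Harm l h) :
    (∀ r > 0, RL1 n m l w q (momC f h) (momC g h) r = lam * momC f h r + momC f0 h r) ∧
    (∀ r > 0, RL2 n m l w q (momC f h) (momC g h) r = lam * momC g h r + momC g0 h r) := by
  have hf2 : ContDiff ℝ 2 f := hf.1.of_le (by exact_mod_cast hK)
  have hg2 : ContDiff ℝ 2 g := hg.1.of_le (by exact_mod_cast hK)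
  constructor
  · intro r hr
    have e3 : LL1 m w Q f g = fun x => lam * f x + f0 x := funext e1
    rw [← momC_LL1 hn hQ hq hf2 hg2 hh hr, e3,
      momC_add (u := fun x => lam * f x)
        (contSph_of_continuous (continuous_const.mul hf2.continuous) r)
        (contSph_of_continuous hf0 r), momC_const_mul]
  · intro r hr
    have e3 : LL2 m w Q f g = fun x => lam * g x + g0 x := funext e2
    rw [← momC_LL2 hn hQ hq hf2 hg2 hh hr, e3,
      momC_add (u := fun x => lam * g x)
        (contSph_of_continuous (continuous_const.mul hg2.continuous) r)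
        (contSph_of_continuous hg0 r), momC_const_mul]

theorem momC_zero_fun (h : MvPolynomial (Fin n) ℝ) (r : ℝ) :
    momC (n := n) (fun _ => 0) h r = 0 := by
  unfold momC
  simp

/-- eigenfunctions -/
theorem eig_of_radStable [NeZero n] (hn : 2 ≤ n) (hK : 2 ≤ K) (hP : IsProfile n m w Q)
    (hq : ∀ x, Q x = q ‖x‖) (hR : RadStable n m K w q) (lam : ℂ) (hlam : 0 ≤ lam.re)
    (f g : E n → ℂ) (hf : BddC K f) (hg : BddC K g)
    (e1 : ∀ x, LL1 m w Q f g x = lam * f x) (e2 : ∀ x, LL2 m w Q f g x = lam * g x) :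
    IsMode m w Q lam f g := by
  obtain ⟨φ, hφc, hdq, hpd, heul, hQc, heulc, hpdc⟩ := profile_data hP hq
  have hmode : ∀ (l : ℕ) (h : MvPolynomial (Fin n) ℝ), Harm l h →
      RadMode m l w q lam (momC f h) (momC g h) := by
    intro l h hh
    obtain ⟨a1, a2⟩ := eig_moment (m := m) (w := w) (f0 := fun _ => 0) (g0 := fun _ => 0) hn hK
      hQc hq hf hg continuous_const continuous_const (lam := lam)
      (fun x => by rw [e1]; simp) (fun x => by rw [e2]; simp) hh
    refine hR.eig l lam hlam _ _ (radAdm_momC hf h) (radAdm_momC hg h) ?_ ?_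
    · intro r hr
      rw [a1 r hr, momC_zero_fun, add_zero]
    · intro r hr
      rw [a2 r hr, momC_zero_fun, add_zero]
  have hfc : Continuous f := hf.1.continuous
  have hgc : Continuous g := hg.1.continuous
  by_cases h0 : lam = 0
  · -- phase mode
    left
    refine ⟨h0, ?_⟩
    have hz : ∀ (l : ℕ), l ≠ 0 → ∀ h : MvPolynomial (Fin n) ℝ, Harm l h → ∀ r > 0,
        momC f h r = 0 ∧ momC g h r = 0 := by
      intro l hl h hh
      exact radMode_zero (hmode l h hh) (fun hl0 => absurd hl0 hl)
        (fun _ => by rw [h0]; norm_num)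
    have hc : ∃ c : ℂ, ∀ r > 0, momC f 1 r = c * (Complex.I * q r) ∧
        momC g 1 r = c * conj (Complex.I * q r) := by
      rcases hmode 0 1 harm_one_const with ⟨_, _, h⟩ | ⟨a, _⟩ | ⟨_, b, _⟩ | h
      · exact h
      · exact absurd a (by norm_num)
      · rw [h0] at b; exact absurd b (by norm_num)
      · exact ⟨0, fun r hr => by simpa using h r hr⟩
    obtain ⟨c, hc⟩ := hc
    refine ⟨c / kap n, fun x => ⟨?_, ?_⟩⟩
    · exact reconstruct0 hn hfc (u0 := phaseMode Q) (continuous_const.mul hQc)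
        (ψ := fun r => Complex.I * q r) (fun x _ => by unfold phaseMode; rw [hq])
        (fun l hl h hh r hr => (hz l hl h hh r hr).1) (fun r hr => (hc r hr).1) x
    · exact reconstruct0 hn hgc (u0 := fun x => conj (phaseMode Q x))
        (Complex.continuous_conj.comp (continuous_const.mul hQc))
        (ψ := fun r => conj (Complex.I * q r)) (fun x _ => by unfold phaseMode; rw [hq])
        (fun l hl h hh r hr => (hz l hl h hh r hr).2) (fun r hr => (hc r hr).2) x
  by_cases h2 : lam = 1 / 2
  · -- translation mode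
    right; left
    refine ⟨h2, ?_⟩
    have hz : ∀ (l : ℕ), l ≠ 1 → ∀ h : MvPolynomial (Fin n) ℝ, Harm l h → ∀ r > 0,
        momC f h r = 0 ∧ momC g h r = 0 := by
      intro l hl h hh
      exact radMode_zero (hmode l h hh) (fun _ => by rw [h2]; norm_num)
        (fun hl1 => absurd hl1 hl)
    have hc : ∀ j : Fin n, ∃ c : ℂ, ∀ r > 0, momC f (X j) r = c * deriv q r ∧
        momC g (X j) r = c * conj (deriv q r) := by
      intro j
      rcases hmode 1 (X j) (harm_X j) with ⟨a, _⟩ | ⟨_, _, h⟩ | ⟨a, _⟩ | h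
      · exact absurd a (by norm_num)
      · exact h
      · exact absurd a (by norm_num)
      · exact ⟨0, fun r hr => by simpa using h r hr⟩
    choose c hc using hc
    refine ⟨fun j => c j * (n / kap n), fun x => ⟨?_, ?_⟩⟩
    · exact reconstruct1 hn hfc (φ := φ) (u0 := fun j => BU.pd j Q) hpdc
        (fun j x _ => hpd j x) (c := c)
        (fun l hl h hh r hr => (hz l hl h hh r hr).1)
        (fun j r hr => by rw [(hc j r hr).1, hdq r hr]) x
    · exact reconstruct1 hn hgc (φ := fun s => conj (φ s)) (u0 := fun j x => conj (BU.pd j Q x))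
        (fun j => Complex.continuous_conj.comp (hpdc j))
        (fun j x _ => by
          show conj (BU.pd j Q x) = _
          rw [hpd j x, map_mul, Complex.conj_ofReal]) (c := c)
        (fun l hl h hh r hr => (hz l hl h hh r hr).2)
        (fun j r hr => by rw [(hc j r hr).2, hdq r hr, map_mul, Complex.conj_ofReal]) x
  by_cases h3 : lam = 1
  · right; right; left
    refine ⟨h3, ?_⟩
    have hz : ∀ (l : ℕ), l ≠ 0 → ∀ h : MvPolynomial (Fin n) ℝ, Harm l h → ∀ r > 0,
        momC f h r = 0 ∧ momC g h r = 0 := by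
      intro l hl h hh
      exact radMode_zero (hmode l h hh) (fun hl0 => absurd hl0 hl) (fun _ => h2)
    have hc : ∃ c : ℂ, ∀ r > 0,
        momC f 1 r = c * (((aa m : ℂ) - Complex.I * (w : ℂ)) * q r + (r / 2) * deriv q r) ∧
        momC g 1 r = c * conj (((aa m : ℂ) - Complex.I * (w : ℂ)) * q r + (r / 2) * deriv q r) := by
      rcases hmode 0 1 harm_one_const with ⟨_, b, _⟩ | ⟨a, _⟩ | ⟨_, _, h⟩ | h
      · exact absurd b h0
      · exact absurd a (by norm_num)
      · exact h
      · exact ⟨0, fun r hr => by simpa using h r hr⟩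
    obtain ⟨c, hc⟩ := hc
    have htc : Continuous (timeMode m w Q) := by
      unfold timeMode
      exact (continuous_const.mul hQc).add (continuous_const.mul heulc)
    have ht : ∀ x : E n, x ≠ 0 → timeMode m w Q x =
        ((aa m : ℂ) - Complex.I * (w : ℂ)) * q ‖x‖ + ((‖x‖ : ℂ) / 2) * deriv q ‖x‖ := by
      intro x hx
      unfold timeMode
      rw [heul, hdq _ (norm_pos_iff.2 hx), ← hq]
      ring
    refine ⟨c / kap n, fun x => ⟨?_, ?_⟩⟩
    · exact reconstruct0 hn hfc (u0 := timeMode m w Q) htc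
        (ψ := fun r => ((aa m : ℂ) - Complex.I * (w : ℂ)) * q r + ((r : ℂ) / 2) * deriv q r)
        ht (fun l hl h hh r hr => (hz l hl h hh r hr).1) (fun r hr => (hc r hr).1) x
    · exact reconstruct0 hn hgc (u0 := fun x => conj (timeMode m w Q x))
        (Complex.continuous_conj.comp htc)
        (ψ := fun r => conj (((aa m : ℂ) - Complex.I * (w : ℂ)) * q r + ((r : ℂ) / 2) * deriv q r))
        (fun x hx => by show conj (timeMode m w Q x) = _; rw [ht x hx])
        (fun l hl h hh r hr => (hz l hl h hh r hr).2) (fun r hr => (hc r hr).2) x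
  · right; right; right
    have hz : ∀ (l : ℕ) (h : MvPolynomial (Fin n) ℝ), Harm l h → ∀ r > 0,
        momC f h r = 0 ∧ momC g h r = 0 := by
      intro l h hh
      exact radMode_zero (hmode l h hh) (fun _ => ⟨h0, h3⟩) (fun _ => h2)
    intro x
    exact ⟨eq_zero_of_moments hn hfc (fun l h hh r hr => (hz l h hh r hr).1) x,
      eq_zero_of_moments hn hgc (fun l h hh r hr => (hz l h hh r hr).2) x⟩

theorem momC_one_indep (h : MvPolynomial (Fin n) ℝ) (r : ℝ) :
    momC (n := n) (fun _ => 1) h r = momC (n := n) (fun _ => 1) h 1 := rfl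

/-- the moments of a mode are radial modes -/
theorem radMode_of_isMode [NeZero n] (hn : 2 ≤ n) (hP : IsProfile n m w Q)
    (hq : ∀ x, Q x = q ‖x‖) {lam : ℂ} {f g : E n → ℂ} (hM : IsMode m w Q lam f g) :
    Continuous f ∧ Continuous g ∧ ∀ (l : ℕ) (h : MvPolynomial (Fin n) ℝ), Harm l h →
      RadMode m l w q lam (momC f h) (momC g h) := by
  obtain ⟨φ, hφc, hdq, hpd, heul, hQc, heulc, hpdc⟩ := profile_data hP hq
  rcases hM with ⟨hl, c, hc⟩ | ⟨hl, c, hc⟩ | ⟨hl, c, hc⟩ | hc
  · have f1 : f = fun x => c * phaseMode Q x := funext fun x => (hc x).1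
    have g1 : g = fun x => c * conj (phaseMode Q x) := funext fun x => (hc x).2
    have f2 : f = fun x => (fun s => c * (Complex.I * q s)) ‖x‖ := by
      rw [f1]; funext x; unfold phaseMode; rw [hq]
    have g2 : g = fun x => (fun s => c * conj (Complex.I * q s)) ‖x‖ := by
      rw [g1]; funext x; unfold phaseMode; rw [hq]
    have hpc : Continuous (phaseMode Q) := continuous_const.mul hQc
    refine ⟨?_, ?_, ?_⟩
    · rw [f1]; exact continuous_const.mul hpc
    · rw [g1]; exact continuous_const.mul (Complex.continuous_conj.comp hpc)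
    · intro l h hh
      have e1 : ∀ r > 0, momC f h r = c * (Complex.I * q r) * momC (fun _ => 1) h 1 := by
        intro r hr
        rw [f2, momC_radial (fun s => c * (Complex.I * q s)) h (le_of_lt hr), momC_one_indep]
      have e2 : ∀ r > 0, momC g h r = c * conj (Complex.I * q r) * momC (fun _ => 1) h 1 := by
        intro r hr
        rw [g2, momC_radial (fun s => c * conj (Complex.I * q s)) h (le_of_lt hr),
          momC_one_indep]
      rcases eq_or_ne l 0 with h0 | h0
      · left
        refine ⟨h0, hl, c * momC (fun _ => 1) h 1, fun r hr => ⟨?_, ?_⟩⟩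
        · rw [e1 r hr]; ring
        · rw [e2 r hr]; ring
      · right; right; right
        intro r hr
        rw [e1 r hr, e2 r hr, momC_one_orth hn h0 hh]
        simp
  · have f1 : f = fun x => ∑ j, c j * BU.pd j Q x := funext fun x => (hc x).1
    have g1 : g = fun x => ∑ j, c j * conj (BU.pd j Q x) := funext fun x => (hc x).2
    have hconj : ∀ j x, conj (BU.pd j Q x) = (x j : ℂ) * (fun s => conj (φ s)) ‖x‖ := by
      intro j x
      rw [hpd j x, map_mul, Complex.conj_ofReal]
    have hmom : ∀ (χ : ℝ → ℂ) (u0 : Fin n → E n → ℂ), (∀ j, Continuous (u0 j)) →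
        (∀ j x, u0 j x = (x j : ℂ) * χ ‖x‖) → ∀ (h : MvPolynomial (Fin n) ℝ), ∀ r > 0,
        momC (fun x => ∑ j, c j * u0 j x) h r =
          (∑ j, c j * ((∫ θ : sphere (0 : E n) 1, pev (X j) (θ : E n) * pev h (θ : E n)
            ∂(sig n) : ℝ) : ℂ)) * (r * χ r) := by
      intro χ u0 hu0 hχ h r hr
      have hms : momC (fun x => ∑ j, c j * u0 j x) h r = ∑ j, c j * momC (u0 j) h r := by
        unfold momC
        simp only [← integral_const_mul]
        rw [← integral_finsetSum]
        · congr 1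
          funext θ
          rw [Finset.sum_mul]
          exact Finset.sum_congr rfl fun j _ => by ring
        · intro j _
          exact (momC_int (contSph_of_continuous (hu0 j) r) h).const_mul _
      rw [hms, Finset.sum_mul]
      refine Finset.sum_congr rfl fun j _ => ?_
      have : u0 j = fun x => (x j : ℂ) * χ ‖x‖ := funext (hχ j)
      rw [this, momC_coord j χ h (le_of_lt hr)]
      ring
    refine ⟨?_, ?_, ?_⟩
    · rw [f1]; exact continuous_finsetSum _ fun j _ => continuous_const.mul (hpdc j)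
    · rw [g1]
      exact continuous_finsetSum _ fun j _ =>
        continuous_const.mul (Complex.continuous_conj.comp (hpdc j))
    · intro l h hh
      have e1 := hmom φ (fun j => BU.pd j Q) hpdc hpd h
      have e2 := hmom (fun s => conj (φ s)) (fun j x => conj (BU.pd j Q x))
        (fun j => Complex.continuous_conj.comp (hpdc j)) hconj h
      rcases eq_or_ne l 1 with h0 | h0
      · right; left
        refine ⟨h0, hl, ∑ j, c j * ((∫ θ : sphere (0 : E n) 1, pev (X j) (θ : E n) *
          pev h (θ : E n) ∂(sig n) : ℝ) : ℂ), fun r hr => ⟨?_, ?_⟩⟩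
        · rw [f1, e1 r hr, hdq r hr]
        · rw [g1, e2 r hr, hdq r hr, map_mul, Complex.conj_ofReal]
      · right; right; right
        intro r hr
        rw [f1, g1, e1 r hr, e2 r hr]
        have : ∑ j, c j * ((∫ θ : sphere (0 : E n) 1, pev (X j) (θ : E n) *
          pev h (θ : E n) ∂(sig n) : ℝ) : ℂ) = 0 := by
          apply Finset.sum_eq_zero
          intro j _
          rw [coord_orth hn j h0 hh]
          simp
        rw [this]
        simp
  · have f1 : f = fun x => c * timeMode m w Q x := funext fun x => (hc x).1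
    have g1 : g = fun x => c * conj (timeMode m w Q x) := funext fun x => (hc x).2
    have ht : ∀ x : E n, timeMode m w Q x =
        (fun s : ℝ => ((aa m : ℂ) - Complex.I * (w : ℂ)) * q s + (1 / 2) * ((s : ℂ) ^ 2 * φ s))
          ‖x‖ := by
      intro x
      unfold timeMode
      rw [heul, hq]
    have ht2 : ∀ r > 0, ((aa m : ℂ) - Complex.I * (w : ℂ)) * q r + (1 / 2) * ((r : ℂ) ^ 2 * φ r) =
        ((aa m : ℂ) - Complex.I * (w : ℂ)) * q r + ((r : ℂ) / 2) * deriv q r := by
      intro r hr
      rw [hdq r hr]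
      ring
    have f2 : f = fun x => (fun s : ℝ => c * (((aa m : ℂ) - Complex.I * (w : ℂ)) * q s +
        (1 / 2) * ((s : ℂ) ^ 2 * φ s))) ‖x‖ := by
      rw [f1]; funext x; rw [ht x]
    have g2 : g = fun x => (fun s : ℝ => c * conj (((aa m : ℂ) - Complex.I * (w : ℂ)) * q s +
        (1 / 2) * ((s : ℂ) ^ 2 * φ s))) ‖x‖ := by
      rw [g1]; funext x; rw [ht x]
    have hpc : Continuous (timeMode m w Q) := by
      unfold timeMode
      exact (continuous_const.mul hQc).add (continuous_const.mul heulc)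
    refine ⟨?_, ?_, ?_⟩
    · rw [f1]; exact continuous_const.mul hpc
    · rw [g1]; exact continuous_const.mul (Complex.continuous_conj.comp hpc)
    · intro l h hh
      have e1 : ∀ r > 0, momC f h r = c * (((aa m : ℂ) - Complex.I * (w : ℂ)) * q r +
          ((r : ℂ) / 2) * deriv q r) * momC (fun _ => 1) h 1 := by
        intro r hr
        rw [f2, momC_radial (fun s : ℝ => c * (((aa m : ℂ) - Complex.I * (w : ℂ)) * q s +
          (1 / 2) * ((s : ℂ) ^ 2 * φ s))) h (le_of_lt hr), momC_one_indep, ← ht2 r hr]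
      have e2 : ∀ r > 0, momC g h r = c * conj (((aa m : ℂ) - Complex.I * (w : ℂ)) * q r +
          ((r : ℂ) / 2) * deriv q r) * momC (fun _ => 1) h 1 := by
        intro r hr
        rw [g2, momC_radial (fun s : ℝ => c * conj (((aa m : ℂ) - Complex.I * (w : ℂ)) * q s +
          (1 / 2) * ((s : ℂ) ^ 2 * φ s))) h (le_of_lt hr), momC_one_indep, ← ht2 r hr]
      rcases eq_or_ne l 0 with h0 | h0
      · right; right; left
        refine ⟨h0, hl, c * momC (fun _ => 1) h 1, fun r hr => ⟨?_, ?_⟩⟩
        · rw [e1 r hr]; ring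
        · rw [e2 r hr]; ring
      · right; right; right
        intro r hr
        rw [e1 r hr, e2 r hr, momC_one_orth hn h0 hh]
        simp
  · have f1 : f = fun _ => 0 := funext fun x => (hc x).1
    have g1 : g = fun _ => 0 := funext fun x => (hc x).2
    refine ⟨by rw [f1]; exact continuous_const, by rw [g1]; exact continuous_const, ?_⟩
    intro l h hh
    right; right; right
    intro r hr
    rw [f1, g1, momC_zero_fun]
    exact ⟨rfl, rfl⟩

/-- Jordan blocks -/
theorem jordan_of_radStable [NeZero n] (hn : 2 ≤ n) (hK : 2 ≤ K) (hP : IsProfile n m w Q)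
    (hq : ∀ x, Q x = q ‖x‖) (hR : RadStable n m K w q) (lam : ℂ) (hlam : 0 ≤ lam.re)
    (f g f0 g0 : E n → ℂ) (hf : BddC K f) (hg : BddC K g) (hM : IsMode m w Q lam f0 g0)
    (e1 : ∀ x, LL1 m w Q f g x = lam * f x + f0 x)
    (e2 : ∀ x, LL2 m w Q f g x = lam * g x + g0 x) :
    ∀ x, f0 x = 0 ∧ g0 x = 0 := by
  obtain ⟨φ, hφc, hdq, hpd, heul, hQc, heulc, hpdc⟩ := profile_data hP hq
  obtain ⟨hf0, hg0, hmode⟩ := radMode_of_isMode hn hP hq hM
  have hz : ∀ (l : ℕ) (h : MvPolynomial (Fin n) ℝ), Harm l h → ∀ r > 0,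
      momC f0 h r = 0 ∧ momC g0 h r = 0 := by
    intro l h hh
    obtain ⟨a1, a2⟩ := eig_moment (m := m) (w := w) hn hK hQc hq hf hg hf0 hg0 e1 e2 hh
    exact hR.jordan l lam hlam _ _ _ _ (radAdm_momC hf h) (radAdm_momC hg h) (hmode l h hh) a1 a2
  intro x
  exact ⟨eq_zero_of_moments hn hf0 (fun l h hh r hr => (hz l h hh r hr).1) x,
    eq_zero_of_moments hn hg0 (fun l h hh r hr => (hz l h hh r hr).2) x⟩

/-- **(X3)** radial mode stability implies mode stability. -/
theorem modeStable_of_radStable [NeZero n] (hn : 2 ≤ n) (hK : 2 ≤ K) (hP : IsProfile n m w Q)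
    (hq : ∀ x, Q x = q ‖x‖) (hR : RadStable n m K w q) : ModeStable m K w Q where
  eig := eig_of_radStable hn hK hP hq hR
  jordan := jordan_of_radStable hn hK hP hq hR

end

end Vale.Agent.P139.H889
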