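import Vale.Agent.P139.H889.Fin3

/-!
Radial mode stability implies mode stability (X3).
-/

set_option linter.all false

namespace Vale.Agent.P139.H889

open MeasureTheory Set Metric Filter Topology MvPolynomial
open Vale.Agent.P225 (E sig sph gr divg pev pgrad plap Harm flux)
open Vale.Agent.P139.BU (IsProfile LL1 LL2 IsMode BddC ModeStable RL1 RL2 RadAdm RadMode RadStable
  W1 W2 aa phaseMode timeMode)
open scoped ContDiff ComplexConjugate

variable {n : ℕ}

/-- moments of admissible functions are admissible -/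
theorem radAdm_momC {K : ℕ} {f : E n → ℂ} (hf : BddC K f) (h : MvPolynomial (Fin n) ℝ) :
    RadAdm K (momC f h) := by
  obtain ⟨h1, h2⟩ := hf
  have hb : ∀ k ≤ K, ∃ C : ℝ, ∀ r : ℝ, ‖iteratedDeriv k (momC f h) r‖ ≤ C := by
    intro k hk
    obtain ⟨C, hC⟩ := h2 k hk
    refine ⟨_, fun r => norm_iteratedDeriv_momC_le_fin
      (h1.of_le (by exact_mod_cast hk)) h r (B := C) fun x _ => hC x⟩
  refine ⟨(contDiff_momC_fin h1 h).contDiffOn, ?_, ?_⟩
  · obtain ⟨C, hC⟩ := hb 0 (Nat.zero_le _)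
    exact ⟨C, fun r _ => by simpa using hC r⟩
  · intro k hk
    obtain ⟨C, hC⟩ := hb k hk
    exact ⟨C, fun r _ => hC r⟩

theorem W1_continuous (m : ℕ) : Continuous (W1 m) := by
  unfold W1
  fun_prop

theorem W2_continuous (m : ℕ) : Continuous (W2 m) := by
  unfold W2
  fun_prop

theorem momC_lin5 {a b c e g : E n → ℂ} {r : ℝ} (ha : ContSph a r) (hb : ContSph b r)
    (hc : ContSph c r) (he : ContSph e r) (hg : ContSph g r) (k1 k2 k3 k4 k5 : ℂ)
    (h : MvPolynomial (Fin n) ℝ) :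
    momC (fun x => k1 * a x + k2 * b x + k3 * c x + k4 * e x + k5 * g x) h r =
      k1 * momC a h r + k2 * momC b h r + k3 * momC c h r + k4 * momC e h r + k5 * momC g h r := by
  have mulc : ∀ (k : ℂ) {u : E n → ℂ}, ContSph u r → ContSph (fun x => k * u x) r := by
    intro k u hu
    exact continuous_const.mul hu
  have addc : ∀ {u v : E n → ℂ}, ContSph u r → ContSph v r → ContSph (fun x => u x + v x) r := by
    intro u v hu hv
    exact hu.add hv
  rw [momC_add (addc (addc (addc (mulc k1 ha) (mulc k2 hb)) (mulc k3 hc)) (mulc k4 he)) (mulc k5 hg),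
    momC_add (addc (addc (mulc k1 ha) (mulc k2 hb)) (mulc k3 hc)) (mulc k4 he),
    momC_add (addc (mulc k1 ha) (mulc k2 hb)) (mulc k3 hc), momC_add (mulc k1 ha) (mulc k2 hb)]
  simp only [momC_const_mul]

section

variable {m K : ℕ} {w : ℝ} {Q : E n → ℂ} {q : ℝ → ℂ}

theorem momC_W (hq : ∀ x, Q x = q ‖x‖) (W : ℂ → ℂ) (f : E n → ℂ) (h : MvPolynomial (Fin n) ℝ)
    {r : ℝ} (hr : 0 ≤ r) : momC (fun x => W (Q x) * f x) h r = W (q r) * momC f h r := by
  have h1 : (fun x => W (Q x) * f x) = fun x => (fun s => W (q s)) ‖x‖ * f x := by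
    funext x
    rw [hq]
  rw [h1]
  exact momC_radial_mul (fun s => W (q s)) f h hr

theorem momC_LL1 [NeZero n] (hn : 2 ≤ n) (hQ : Continuous Q) (hq : ∀ x, Q x = q ‖x‖)
    {f g : E n → ℂ} (hf : ContDiff ℝ 2 f) (hg : ContDiff ℝ 2 g) {l : ℕ}
    {h : MvPolynomial (Fin n) ℝ} (hh : Harm l h) {r : ℝ} (hr : 0 < r) :
    momC (LL1 m w Q f g) h r = RL1 n m l w q (momC f h) (momC g h) r := by
  have e1 : LL1 m w Q f g = fun x => Complex.I * BU.lap f x + (-(1 / 2)) * BU.eul f x +
      (-(aa m : ℂ) + Complex.I * w) * f x +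
      (-(Complex.I * ((m : ℂ) + 1))) * (W1 m (Q x) * f x) +
      (-(Complex.I * (m : ℂ))) * (W2 m (Q x) * g x) := by
    funext x
    unfold LL1
    ring
  have c1 : ContSph (BU.lap f) r := contSph_of_continuous (continuous_lapC hf) r
  have c2 : ContSph (BU.eul f) r :=
    contSph_of_continuous (continuous_eulC (contDiff_one_of_two hf)) r
  have c3 : ContSph f r := contSph_of_continuous hf.continuous r
  have c4 : ContSph (fun x => W1 m (Q x) * f x) r :=
    contSph_of_continuous (((W1_continuous m).comp hQ).mul hf.continuous) r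
  have c5 : ContSph (fun x => W2 m (Q x) * g x) r :=
    contSph_of_continuous (((W2_continuous m).comp hQ).mul hg.continuous) r
  rw [e1, momC_lin5 c1 c2 c3 c4 c5, momC_lap hn hh hf hr, momC_eul (contDiff_one_of_two hf),
    momC_W hq _ _ _ hr.le, momC_W hq _ _ _ hr.le]
  unfold RL1
  ring

theorem momC_LL2 [NeZero n] (hn : 2 ≤ n) (hQ : Continuous Q) (hq : ∀ x, Q x = q ‖x‖)
    {f g : E n → ℂ} (hf : ContDiff ℝ 2 f) (hg : ContDiff ℝ 2 g) {l : ℕ}
    {h : MvPolynomial (Fin n) ℝ} (hh : Harm l h) {r : ℝ} (hr : 0 < r) :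
    momC (LL2 m w Q f g) h r = RL2 n m l w q (momC f h) (momC g h) r := by
  have e1 : LL2 m w Q f g = fun x => (-Complex.I) * BU.lap g x + (-(1 / 2)) * BU.eul g x +
      (-(aa m : ℂ) - Complex.I * w) * g x +
      (Complex.I * ((m : ℂ) + 1)) * (W1 m (Q x) * g x) +
      (Complex.I * (m : ℂ)) * ((fun z => conj (W2 m z)) (Q x) * f x) := by
    funext x
    unfold LL2
    ring
  have c1 : ContSph (BU.lap g) r := contSph_of_continuous (continuous_lapC hg) r
  have c2 : ContSph (BU.eul g) r :=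
    contSph_of_continuous (continuous_eulC (contDiff_one_of_two hg)) r
  have c3 : ContSph g r := contSph_of_continuous hg.continuous r
  have c4 : ContSph (fun x => W1 m (Q x) * g x) r :=
    contSph_of_continuous (((W1_continuous m).comp hQ).mul hg.continuous) r
  have c5 : ContSph (fun x => (fun z => conj (W2 m z)) (Q x) * f x) r :=
    contSph_of_continuous (((Complex.continuous_conj.comp (W2_continuous m)).comp hQ).mul
      hf.continuous) r
  rw [e1, momC_lin5 c1 c2 c3 c4 c5, momC_lap hn hh hg hr, momC_eul (contDiff_one_of_two hg),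
    momC_W hq _ _ _ hr.le, momC_W hq (fun z => conj (W2 m z)) _ _ hr.le]
  unfold RL2
  ring

/-! ### derivatives of the profile -/

theorem exists_norm_eq [NeZero n] {r : ℝ} (hr : 0 ≤ r) : ∃ x : E n, ‖x‖ = r := by
  have h0 : 0 < n := Nat.pos_of_ne_zero (NeZero.ne n)
  refine ⟨r • ee ⟨0, h0⟩, ?_⟩
  rw [norm_smul, Real.norm_eq_abs, abs_of_nonneg hr]
  simp

/-- the derivatives of a radial function -/
theorem radial_derivs [NeZero n] {H : ℝ → ℂ} (hH : ContDiff ℝ ∞ H)
    (hQ : ∀ x : E n, Q x = H (‖x‖ ^ 2)) (hq : ∀ x : E n, Q x = q ‖x‖) :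
    (∀ r > 0, deriv q r = r * (2 * deriv H (r ^ 2))) ∧
    (∀ (x : E n) (v : E n), fderiv ℝ Q x v = (inner ℝ x v : ℝ) * (2 * deriv H (‖x‖ ^ 2))) := by
  constructor
  · intro r hr
    have h1 : ∀ s, 0 < s → q s = H (s ^ 2) := by
      intro s hs
      obtain ⟨x, hx⟩ := exists_norm_eq (n := n) hs.le
      rw [← hx, ← hq, hQ]
    have h2 : HasDerivAt (fun s => H (s ^ 2)) ((2 * r) • deriv H (r ^ 2)) r := by
      have e1 : HasDerivAt H (deriv H (r ^ 2)) (r ^ 2) :=
        (hH.differentiable (by simp) _).hasDerivAt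
      have e2 : HasDerivAt (fun s : ℝ => s ^ 2) (2 * r) r := by
        simpa using hasDerivAt_pow 2 r
      exact HasDerivAt.scomp (h := fun s : ℝ => s ^ 2) r e1 e2
    have h3 : HasDerivAt q ((2 * r) • deriv H (r ^ 2)) r := by
      refine h2.congr_of_eventuallyEq ?_
      filter_upwards [isOpen_Ioi.mem_nhds hr] with s hs
      exact h1 s hs
    rw [h3.deriv, Complex.real_smul]
    push_cast
    ring
  · intro x v
    have e1 : HasDerivAt H (deriv H (‖x‖ ^ 2)) (‖x‖ ^ 2) :=
      (hH.differentiable (by simp) _).hasDerivAt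
    have e2 : HasFDerivAt (fun y : E n => ‖y‖ ^ 2) (2 • (innerSL ℝ x)) x :=
      (hasStrictFDerivAt_norm_sq x).hasFDerivAt
    have e3 : HasFDerivAt (fun y : E n => H (‖y‖ ^ 2)) _ x := e1.hasFDerivAt.comp x e2
    have e4 : Q = fun y : E n => H (‖y‖ ^ 2) := funext hQ
    rw [e4, e3.fderiv]
    simp
    ring

end

end Vale.Agent.P139.H889
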