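import Mathlib

/-!
Smoothness of parametric integrals over compact spaces; division of smooth functions by powers.
-/

set_option linter.all false

namespace Vale.Agent.P139.H889

open MeasureTheory Set Metric Filter Topology
open scoped ContDiff

variable {α W : Type*} [TopologicalSpace α] [CompactSpace α] [MeasurableSpace α]
  [OpensMeasurableSpace α] [SecondCountableTopology α] {μ : Measure α} [IsFiniteMeasure μ]
  [NormedAddCommGroup W] [NormedSpace ℝ W]
  {G : Type*} [NormedAddCommGroup G] [NormedSpace ℝ G]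

theorem continuous_par {F : ℝ × W → G} (hF : Continuous F) {ι : α → W} (hι : Continuous ι) :
    Continuous (fun r : ℝ => ∫ a, F (r, ι a) ∂μ) := by
  have h : (fun r : ℝ => ∫ a, F (r, ι a) ∂μ) = fun r : ℝ => ∫ a in univ, F (r, ι a) ∂μ := by
    funext r
    rw [Measure.restrict_univ]
  rw [h]
  apply continuous_parametric_integral_of_continuous _ isCompact_univ
  have h2 : Continuous (fun p : ℝ × α => (p.1, ι p.2)) := by fun_prop
  exact hF.comp h2

theorem hasDerivAt_par {F : ℝ × W → G} (hF : ContDiff ℝ 1 F) {ι : α → W} (hι : Continuous ι)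
    (r : ℝ) :
    HasDerivAt (fun r : ℝ => ∫ a, F (r, ι a) ∂μ)
      (∫ a, fderiv ℝ F (r, ι a) ((1 : ℝ), (0 : W)) ∂μ) r := by
  have hF' : Continuous (fun p : ℝ × W => fderiv ℝ F p ((1 : ℝ), (0 : W))) :=
    (hF.continuous_fderiv (by simp)).clm_apply continuous_const
  have hG : Continuous (fun p : ℝ × α => fderiv ℝ F (p.1, ι p.2) ((1 : ℝ), (0 : W))) :=
    hF'.comp (by fun_prop : Continuous fun p : ℝ × α => (p.1, ι p.2))
  have hK : IsCompact ((closedBall r 1) ×ˢ (univ : Set α)) :=
    (isCompact_closedBall r 1).prod isCompact_univ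
  obtain ⟨C, hC⟩ := hK.exists_bound_of_continuousOn hG.continuousOn
  have hFc : ∀ s : ℝ, Continuous (fun a : α => F (s, ι a)) := fun s =>
    hF.continuous.comp (by fun_prop)
  have hmeas : ∀ s : ℝ, AEStronglyMeasurable (fun a : α => F (s, ι a)) μ := fun s =>
    (hFc s).aestronglyMeasurable
  have hint : Integrable (fun a : α => F (r, ι a)) μ := by
    obtain ⟨B, hB⟩ := isCompact_univ.exists_bound_of_continuousOn (hFc r).continuousOn
    exact Integrable.of_bound (hmeas r) B (Filter.Eventually.of_forall fun a => hB a (mem_univ a))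
  have := hasDerivAt_integral_of_dominated_loc_of_deriv_le (μ := μ) (𝕜 := ℝ)
    (F := fun s a => F (s, ι a)) (F' := fun s a => fderiv ℝ F (s, ι a) ((1 : ℝ), (0 : W)))
    (x₀ := r) (s := ball r 1) (bound := fun _ => C) (ball_mem_nhds r one_pos)
    (Filter.Eventually.of_forall hmeas) hint
    ((hF'.comp (by fun_prop : Continuous fun a : α => (r, ι a))).aestronglyMeasurable)
    (Filter.Eventually.of_forall fun a s hs => hC (s, a) ⟨ball_subset_closedBall hs, mem_univ a⟩)
    (integrable_const C)
    (Filter.Eventually.of_forall fun a s _ => by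
      have h1 : HasFDerivAt F (fderiv ℝ F (s, ι a)) (s, ι a) :=
        (hF.differentiable (by simp) _).hasFDerivAt
      have h2 : HasDerivAt (fun s : ℝ => (s, ι a)) ((1 : ℝ), (0 : W)) s :=
        (hasDerivAt_id s).prodMk (hasDerivAt_const s (ι a))
      exact h1.comp_hasDerivAt s h2)
  exact this.2

theorem contDiff_par_nat {ι : α → W} (hι : Continuous ι) (m : ℕ) :
    ∀ {F : ℝ × W → G}, ContDiff ℝ m F → ContDiff ℝ m (fun r : ℝ => ∫ a, F (r, ι a) ∂μ) := by
  induction m with
  | zero =>
    intro F hF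
    have h0 : Continuous F := hF.continuous
    simpa using (contDiff_zero (𝕜 := ℝ)).2 (continuous_par (μ := μ) h0 hι)
  | succ m ih =>
    intro F hF
    have h1 : ContDiff ℝ 1 F := hF.of_le (by exact_mod_cast Nat.succ_le_succ (Nat.zero_le m))
    have hd := fun r => hasDerivAt_par (μ := μ) h1 hι r
    have hderiv : deriv (fun r : ℝ => ∫ a, F (r, ι a) ∂μ) =
        fun r => ∫ a, fderiv ℝ F (r, ι a) ((1 : ℝ), (0 : W)) ∂μ := by
      funext r
      exact (hd r).deriv
    have h2 : ContDiff ℝ m (fun p : ℝ × W => fderiv ℝ F p ((1 : ℝ), (0 : W))) :=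
      (hF.fderiv_right (m := m) (by exact_mod_cast le_refl _)).clm_apply contDiff_const
    have h3 := ih h2
    have : ContDiff ℝ ((m : WithTop ℕ∞) + 1) (fun r : ℝ => ∫ a, F (r, ι a) ∂μ) := by
      rw [contDiff_succ_iff_deriv]
      refine ⟨fun r => (hd r).differentiableAt, ?_, ?_⟩
      · intro h
        exact absurd h (by simp)
      · rw [hderiv]; exact h3
    exact_mod_cast this

theorem contDiff_par {ι : α → W} (hι : Continuous ι) {F : ℝ × W → G} (hF : ContDiff ℝ ∞ F) :
    ContDiff ℝ ∞ (fun r : ℝ => ∫ a, F (r, ι a) ∂μ) := by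
  rw [contDiff_infty]
  intro m
  exact contDiff_par_nat hι m (hF.of_le (by exact_mod_cast le_top))

/-- Division of a smooth function vanishing at `0` by the variable. -/
theorem exists_div {M : ℝ → ℝ} (hM : ContDiff ℝ ∞ M) (h0 : M 0 = 0) :
    ∃ g : ℝ → ℝ, ContDiff ℝ ∞ g ∧ ∀ r, M r = r * g r := by
  have hd : ContDiff ℝ ∞ (deriv M) := by
    have := (contDiff_infty_iff_deriv.1 hM).2
    exact this
  let Q : ℝ × ℝ → ℝ := fun p => deriv M (p.2 * p.1)
  have hG : ContDiff ℝ ∞ Q := hd.comp (contDiff_snd.mul contDiff_fst)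
  refine ⟨fun r => ∫ t : Icc (0 : ℝ) 1, Q (r, (t : ℝ)), ?_, ?_⟩
  · exact contDiff_par (α := Icc (0 : ℝ) 1) (μ := volume) (ι := fun t => (t : ℝ))
      continuous_subtype_val hG
  · intro r
    have h1 : ∫ t : Icc (0 : ℝ) 1, Q (r, (t : ℝ)) = ∫ t in (0 : ℝ)..1, deriv M (t * r) := by
      rw [intervalIntegral.integral_of_le zero_le_one, ← integral_Icc_eq_integral_Ioc]
      exact integral_subtype_comap measurableSet_Icc (fun t : ℝ => Q (r, t))
    show M r = r * ∫ t : Icc (0 : ℝ) 1, Q (r, (t : ℝ))
    rw [h1]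
    have h2 : r * ∫ t in (0 : ℝ)..1, deriv M (t * r) = ∫ t in (0 : ℝ)..1, r * deriv M (t * r) := by
      rw [intervalIntegral.integral_const_mul]
    rw [h2]
    have h3 : ∀ t ∈ uIcc (0 : ℝ) 1, HasDerivAt (fun t => M (t * r)) (r * deriv M (t * r)) t := by
      intro t _
      have e1 : HasDerivAt M (deriv M (t * r)) (t * r) :=
        (hM.differentiable (by simp) _).hasDerivAt
      have e2 : HasDerivAt (fun t : ℝ => t * r) r t := by
        simpa using (hasDerivAt_id t).mul_const r
      have e3 : HasDerivAt (fun t => M (t * r)) (deriv M (t * r) * r) t := e1.comp t e2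
      rw [mul_comm] at e3
      exact e3
    rw [intervalIntegral.integral_eq_sub_of_hasDerivAt h3]
    · simp [h0]
    · apply Continuous.intervalIntegrable
      exact continuous_const.mul (hd.continuous.comp (by fun_prop))

theorem iteratedDeriv_id_mul {g : ℝ → ℝ} (hg : ContDiff ℝ ∞ g) (k : ℕ) :
    iteratedDeriv (k + 1) (fun r => r * g r) =
      fun r => r * iteratedDeriv (k + 1) g r + (k + 1) * iteratedDeriv k g r := by
  have hsm : ∀ j : ℕ, Differentiable ℝ (iteratedDeriv j g) := fun j =>
    hg.differentiable_iteratedDeriv j (by exact_mod_cast ENat.coe_lt_top j)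
  induction k with
  | zero =>
    funext r
    rw [iteratedDeriv_one, iteratedDeriv_one, iteratedDeriv_zero]
    have h1 : HasDerivAt (fun r : ℝ => r * g r) (1 * g r + r * deriv g r) r :=
      (hasDerivAt_id r).mul ((hg.differentiable (by simp) r).hasDerivAt)
    rw [h1.deriv]
    push_cast
    ring
  | succ k ih =>
    rw [iteratedDeriv_succ, ih]
    funext r
    have h1 : HasDerivAt (iteratedDeriv (k + 1) g) (iteratedDeriv (k + 2) g r) r := by
      rw [iteratedDeriv_succ (n := k + 1)]
      exact (hsm (k + 1) r).hasDerivAt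
    have h2 : HasDerivAt (iteratedDeriv k g) (iteratedDeriv (k + 1) g r) r := by
      rw [iteratedDeriv_succ (n := k)]
      exact (hsm k r).hasDerivAt
    have h3 : HasDerivAt (fun r : ℝ => r * iteratedDeriv (k + 1) g r +
        ((k : ℝ) + 1) * iteratedDeriv k g r)
        (1 * iteratedDeriv (k + 1) g r + r * iteratedDeriv (k + 2) g r +
          ((k : ℝ) + 1) * iteratedDeriv (k + 1) g r) r :=
      ((hasDerivAt_id r).mul h1).add (h2.const_mul _)
    rw [h3.deriv]
    push_cast
    ring

/-- Division by `r ^ l`. -/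
theorem exists_div_pow (l : ℕ) : ∀ {M : ℝ → ℝ}, ContDiff ℝ ∞ M →
    (∀ k < l, iteratedDeriv k M 0 = 0) → ∃ g : ℝ → ℝ, ContDiff ℝ ∞ g ∧ ∀ r, M r = r ^ l * g r := by
  induction l with
  | zero =>
    intro M hM _
    exact ⟨M, hM, fun r => by simp⟩
  | succ l ih =>
    intro M hM h0
    obtain ⟨M1, h1, h2⟩ := exists_div hM (by simpa using h0 0 (Nat.succ_pos l))
    have hM1 : M = fun r => r * M1 r := funext h2
    obtain ⟨g, h3, h4⟩ := ih h1 (by
      intro k hk
      have h5 := h0 (k + 1) (by omega)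
      rw [hM1, iteratedDeriv_id_mul h1 k] at h5
      simp only [zero_mul, zero_add] at h5
      have h6 : ((k : ℝ) + 1) ≠ 0 := by positivity
      exact (mul_eq_zero.1 h5).resolve_left h6)
    refine ⟨g, h3, fun r => ?_⟩
    rw [h2, h4, pow_succ]
    ring

end Vale.Agent.P139.H889
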