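import Vale.Agent.P225.Bdl.B2
import Vale.Agent.P139.H889.Par

/-!
Angular moments of smooth functions on `ℝⁿ` against homogeneous harmonic polynomials: smoothness,
divisibility by `r ^ l`, the radial form of the Laplacian and of `x · ∇`.
-/

set_option linter.all false

namespace Vale.Agent.P139.H889

open MeasureTheory Set Metric Filter Topology MvPolynomial
open Vale.Agent.P225 (E sig sph gr divg pev pgrad plap Harm flux)
open scoped ContDiff

variable {n : ℕ} {G : Type*} [NormedAddCommGroup G] [NormedSpace ℝ G]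

/-- The moment of `u` on the sphere of radius `r` against `h`. -/
noncomputable def mom (u : E n → ℝ) (h : MvPolynomial (Fin n) ℝ) (r : ℝ) : ℝ :=
  ∫ θ : sphere (0 : E n) 1, u (r • (θ : E n)) * pev h (θ : E n) ∂(sig n)

/-- the unit vector -/
noncomputable abbrev ee (i : Fin n) : E n := EuclideanSpace.single i 1

/-- the Laplacian -/
noncomputable def lap (u : E n → ℝ) (x : E n) : ℝ :=
  ∑ i, fderiv ℝ (fun y => fderiv ℝ u y (ee i)) x (ee i)

theorem divg_gr {u : E n → ℝ} (hu : ContDiff ℝ 2 u) (x : E n) : divg (gr u) x = lap u x := by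
  unfold divg lap
  refine Finset.sum_congr rfl fun i _ => ?_
  have hg : ContDiff ℝ 1 (gr u) := Vale.Agent.P225.contDiff_gr hu (by norm_num)
  have h1 : HasFDerivAt (gr u) (fderiv ℝ (gr u) x) x := (hg.differentiable (by simp) x).hasFDerivAt
  have h2 : HasFDerivAt (fun y => (EuclideanSpace.proj (𝕜 := ℝ) i) (gr u y))
      ((EuclideanSpace.proj (𝕜 := ℝ) i).comp (fderiv ℝ (gr u) x)) x :=
    (EuclideanSpace.proj (𝕜 := ℝ) i).hasFDerivAt.comp x h1
  have h3 : (fun y => (EuclideanSpace.proj (𝕜 := ℝ) i) (gr u y)) =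
      fun y => fderiv ℝ u y (ee i) := by
    funext y
    simp [gr]
  rw [h3] at h2
  rw [h2.fderiv]
  simp

theorem contDiff_lap {u : E n → ℝ} (hu : ContDiff ℝ ∞ u) : ContDiff ℝ ∞ (lap u) := by
  unfold lap
  apply ContDiff.sum
  intro i _
  have h1 : ContDiff ℝ ∞ (fun y => fderiv ℝ u y (ee i)) :=
    (hu.fderiv_right (m := ∞) (by simp)).clm_apply contDiff_const
  exact (h1.fderiv_right (m := ∞) (by simp)).clm_apply contDiff_const

theorem contDiff_eul {u : E n → ℝ} (hu : ContDiff ℝ ∞ u) :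
    ContDiff ℝ ∞ (fun x => fderiv ℝ u x x) :=
  (hu.fderiv_right (m := ∞) (by simp)).clm_apply contDiff_id

/-- the integrand -/
noncomputable def FF (u : E n → ℝ) (h : MvPolynomial (Fin n) ℝ) : ℝ × E n → ℝ :=
  fun p => u (p.1 • p.2) * pev h p.2

theorem contDiff_FF {u : E n → ℝ} (hu : ContDiff ℝ ∞ u) (h : MvPolynomial (Fin n) ℝ) :
    ContDiff ℝ ∞ (FF u h) :=
  (hu.comp (contDiff_fst.smul contDiff_snd)).mul
    ((Vale.Agent.P225.pev_contDiff h).comp contDiff_snd)

theorem contDiff_mom {u : E n → ℝ} (hu : ContDiff ℝ ∞ u) (h : MvPolynomial (Fin n) ℝ) :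
    ContDiff ℝ ∞ (mom u h) :=
  contDiff_par (α := sphere (0 : E n) 1) (μ := sig n) (ι := fun θ => (θ : E n))
    continuous_subtype_val (contDiff_FF hu h)

/-- derivatives in the first variable -/
noncomputable def dd (F : ℝ × E n → G) : ℕ → ℝ × E n → G
  | 0 => F
  | k + 1 => fun p => fderiv ℝ (dd F k) p ((1 : ℝ), (0 : E n))

theorem contDiff_dd {F : ℝ × E n → G} (hF : ContDiff ℝ ∞ F) (k : ℕ) : ContDiff ℝ ∞ (dd F k) := by
  induction k with
  | zero => exact hF
  | succ k ih => exact (ih.fderiv_right (m := ∞) (by simp)).clm_apply contDiff_const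

theorem dd_eq {F : ℝ × E n → G} (hF : ContDiff ℝ ∞ F) (k : ℕ) (r : ℝ) (x : E n) :
    dd F k (r, x) = iteratedDeriv k (fun s => F (s, x)) r := by
  induction k generalizing r with
  | zero => simp [dd]
  | succ k ih =>
    rw [iteratedDeriv_succ]
    have h1 : (iteratedDeriv k fun s => F (s, x)) = fun s => dd F k (s, x) := by
      funext s; exact (ih s).symm
    rw [h1]
    have h2 : HasFDerivAt (dd F k) (fderiv ℝ (dd F k) (r, x)) (r, x) :=
      ((contDiff_dd hF k).differentiable (by simp) _).hasFDerivAt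
    have h3 : HasDerivAt (fun s : ℝ => (s, x)) ((1 : ℝ), (0 : E n)) r :=
      (hasDerivAt_id r).prodMk (hasDerivAt_const r x)
    have h4 := h2.comp_hasDerivAt r h3
    exact h4.deriv.symm

theorem iteratedDeriv_par {F : ℝ × E n → G} (hF : ContDiff ℝ ∞ F) (k : ℕ) :
    iteratedDeriv k (fun r => ∫ θ : sphere (0 : E n) 1, F (r, (θ : E n)) ∂(sig n)) =
      fun r => ∫ θ : sphere (0 : E n) 1, dd F k (r, (θ : E n)) ∂(sig n) := by
  induction k with
  | zero => simp [dd]
  | succ k ih =>
    rw [iteratedDeriv_succ, ih]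
    funext r
    have h1 : ContDiff ℝ 1 (dd F k) := (contDiff_dd hF k).of_le (by simp)
    exact (hasDerivAt_par (α := sphere (0 : E n) 1) (μ := sig n) (ι := fun θ => (θ : E n))
      h1 continuous_subtype_val r).deriv

theorem iteratedDeriv_mom {u : E n → ℝ} (hu : ContDiff ℝ ∞ u) (h : MvPolynomial (Fin n) ℝ)
    (k : ℕ) (r : ℝ) :
    iteratedDeriv k (mom u h) r = ∫ θ : sphere (0 : E n) 1,
      iteratedFDeriv ℝ k u (r • (θ : E n)) (fun _ => (θ : E n)) * pev h (θ : E n) ∂(sig n) := by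
  have h1 := iteratedDeriv_par (contDiff_FF hu h) k
  have h2 : mom u h = fun r => ∫ θ : sphere (0 : E n) 1, FF u h (r, (θ : E n)) ∂(sig n) := rfl
  rw [h2, h1]
  beta_reduce
  congr 1
  funext θ
  rw [dd_eq (contDiff_FF hu h)]
  have h3 : (fun s : ℝ => FF u h (s, (θ : E n))) =
      fun s : ℝ => u (s • (θ : E n)) * pev h (θ : E n) := rfl
  rw [h3]
  have h4 : ContDiff ℝ ∞ (fun s : ℝ => u (s • (θ : E n))) :=
    hu.comp (contDiff_id.smul contDiff_const)
  have h5 : iteratedDeriv k (fun s : ℝ => u (s • (θ : E n)) * pev h (θ : E n)) r =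
      iteratedDeriv k (fun s : ℝ => u (s • (θ : E n))) r * pev h (θ : E n) := by
    have := iteratedDeriv_const_mul (n := k) (x := r) (pev h (θ : E n))
      (f := fun s : ℝ => u (s • (θ : E n)))
      ((h4.of_le (by exact_mod_cast le_top)).contDiffAt)
    simp only [mul_comm _ (pev h (θ : E n))]
    exact this
  rw [h5]
  congr 1
  let L : ℝ →L[ℝ] E n := ContinuousLinearMap.toSpanSingleton ℝ (θ : E n)
  have h6 : (fun s : ℝ => u (s • (θ : E n))) = u ∘ L := by
    funext s; simp [L]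
  rw [h6, iteratedDeriv_eq_iteratedFDeriv,
    L.iteratedFDeriv_comp_right hu r (i := k) (by exact_mod_cast le_top)]
  simp [L]

end Vale.Agent.P139.H889
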