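import Vale.Agent.P139.H889.Ang

/-!
Angular moments: vanishing to order `l` at the origin, radial form of the Laplacian and of `x · ∇`,
completeness.
-/

set_option linter.all false

namespace Vale.Agent.P139.H889

open MeasureTheory Set Metric Filter Topology MvPolynomial
open Vale.Agent.P225 (E sig sph gr divg pev pgrad plap Harm flux)
open scoped ContDiff

variable {n : ℕ}

theorem exists_poly {k : ℕ} (m : ContinuousMultilinearMap ℝ (fun _ : Fin k => E n) ℝ) :
    ∃ P : MvPolynomial (Fin n) ℝ, P.IsHomogeneous k ∧ ∀ x : E n, pev P x = m (fun _ => x) := by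
  classical
  refine ⟨∑ s : Fin k → Fin n, C (m fun j => ee (s j)) * ∏ j, X (s j), ?_, ?_⟩
  · apply IsHomogeneous.sum
    intro s _
    have h1 : (∏ j : Fin k, (X (s j) : MvPolynomial (Fin n) ℝ)).IsHomogeneous (∑ _j : Fin k, 1) :=
      IsHomogeneous.prod _ _ _ fun j _ => isHomogeneous_X ℝ (s j)
    have h2 := (isHomogeneous_C (Fin n) (m fun j => ee (s j))).mul h1
    simpa using h2
  · intro x
    have h1 : (fun _ : Fin k => x) = fun _ : Fin k => ∑ i, x i • (ee i : E n) := by
      funext _
      exact (Vale.Agent.P225.sum_single x).symm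
    rw [h1, ContinuousMultilinearMap.map_sum]
    have h2 : pev (∑ s : Fin k → Fin n, C (m fun j => ee (s j)) * ∏ j, X (s j)) x =
        ∑ s : Fin k → Fin n, (m fun j => ee (s j)) * ∏ j, x (s j) := by
      simp only [pev, map_sum, map_mul, eval_C, map_prod, eval_X]
    rw [h2]
    refine Finset.sum_congr rfl fun s _ => ?_
    have h3 := m.map_smul_univ (fun j => x (s j)) (fun j => (ee (s j) : E n))
    rw [h3, smul_eq_mul, mul_comm]

theorem orth_lower [NeZero n] (hn : 2 ≤ n) {k l : ℕ} (hkl : k < l)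
    {P h : MvPolynomial (Fin n) ℝ} (hP : P.IsHomogeneous k) (hh : Harm l h) :
    ∫ θ : sphere (0 : E n) 1, pev P (θ : E n) * pev h (θ : E n) ∂(sig n) = 0 := by
  obtain ⟨q, hq1, hq2⟩ := Vale.Agent.P225.harm_decomp hn k P hP
  have h1 : ∀ θ : sphere (0 : E n) 1, pev P (θ : E n) * pev h (θ : E n) =
      ∑ j ∈ Finset.range (k + 1), pev (q j) (θ : E n) * pev h (θ : E n) := by
    intro θ
    rw [hq2 _ (norm_eq_of_mem_sphere θ), Finset.sum_mul]
  simp only [h1]
  rw [integral_finsetSum]
  · apply Finset.sum_eq_zero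
    intro j hj
    have hj' := Finset.mem_range.1 hj
    have h2 := Vale.Agent.P225.harm_orth hn (k := j) (l := l) (by omega) (hq1 j) hh
    unfold sph at h2
    simpa only [one_smul] using h2
  · intro j _
    exact Vale.Agent.P225.integrable_sig (by
      exact (((Vale.Agent.P225.pev_cont _).comp continuous_subtype_val).mul
        ((Vale.Agent.P225.pev_cont _).comp continuous_subtype_val)))

theorem iteratedDeriv_mom_zero [NeZero n] (hn : 2 ≤ n) {l : ℕ} {h : MvPolynomial (Fin n) ℝ}
    (hh : Harm l h) {u : E n → ℝ} (hu : ContDiff ℝ ∞ u) {k : ℕ} (hk : k < l) :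
    iteratedDeriv k (mom u h) 0 = 0 := by
  rw [iteratedDeriv_mom hu]
  obtain ⟨P, hP1, hP2⟩ := exists_poly (iteratedFDeriv ℝ k u 0)
  have h1 := orth_lower hn hk hP1 hh
  refine Eq.trans ?_ h1
  congr 1
  funext θ
  rw [hP2, zero_smul]

/-- the moment is `r ^ l` times a smooth function -/
theorem exists_g [NeZero n] (hn : 2 ≤ n) {l : ℕ} {h : MvPolynomial (Fin n) ℝ}
    (hh : Harm l h) {u : E n → ℝ} (hu : ContDiff ℝ ∞ u) :
    ∃ g : ℝ → ℝ, ContDiff ℝ ∞ g ∧ ∀ r, mom u h r = r ^ l * g r :=
  exists_div_pow l (contDiff_mom hu h) fun _ hk => iteratedDeriv_mom_zero hn hh hu hk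

theorem deriv_mom {u : E n → ℝ} (hu : ContDiff ℝ ∞ u) (h : MvPolynomial (Fin n) ℝ) (r : ℝ) :
    r * deriv (mom u h) r = mom (fun x => fderiv ℝ u x x) h r := by
  have h1 := iteratedDeriv_mom hu h 1 r
  rw [iteratedDeriv_one] at h1
  rw [h1, mom, ← integral_const_mul]
  congr 1
  funext θ
  rw [iteratedFDeriv_one_apply, map_smul, smul_eq_mul]
  ring

theorem sph_mul_pev {l : ℕ} {h : MvPolynomial (Fin n) ℝ} (hh : Harm l h) (u : E n → ℝ) (r : ℝ) :
    sph (fun x => u x * pev h x) r = r ^ l * mom u h r := by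
  unfold sph mom
  rw [← integral_const_mul]
  congr 1
  funext θ
  beta_reduce
  rw [Vale.Agent.P225.pev_smul hh.1]
  ring

/-- The radial form of the Laplacian and of `x · ∇`. -/
theorem radial_real [NeZero n] (hn : 2 ≤ n) {l : ℕ} {h : MvPolynomial (Fin n) ℝ}
    (hh : Harm l h) {u : E n → ℝ} (hu : ContDiff ℝ ∞ u) :
    ∃ g : ℝ → ℝ, ContDiff ℝ ∞ g ∧ (∀ r, mom u h r = r ^ l * g r) ∧
      (∀ r, mom (fun x => fderiv ℝ u x x) h r = r ^ l * (r * deriv g r + l * g r)) ∧
      ∀ r > 0, mom (lap u) h r =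
        r ^ l * (deriv (deriv g) r + (n - 1 + 2 * l) / r * deriv g r) := by
  obtain ⟨g, hg, hgm⟩ := exists_g hn hh hu
  have hgd : ∀ r, HasDerivAt g (deriv g r) r := fun r =>
    (hg.differentiable (by simp) r).hasDerivAt
  have hg' : ContDiff ℝ ∞ (deriv g) := (contDiff_infty_iff_deriv.1 hg).2
  have hgdd : ∀ r, HasDerivAt (deriv g) (deriv (deriv g) r) r := fun r =>
    (hg'.differentiable (by simp) r).hasDerivAt
  -- the derivative of the moment
  have hM' : ∀ r, r * deriv (mom u h) r = r ^ l * (r * deriv g r + l * g r) := by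
    intro r
    have e1 : mom u h = fun r => r ^ l * g r := funext hgm
    have e2 : HasDerivAt (fun r : ℝ => r ^ l * g r)
        ((l * r ^ (l - 1)) * g r + r ^ l * deriv g r) r := (hasDerivAt_pow l r).mul (hgd r)
    rw [e1, e2.deriv]
    rcases Nat.eq_zero_or_pos l with h0 | h0
    · subst h0; simp
    · have e3 : r ^ l = r ^ (l - 1) * r := by rw [← pow_succ]; congr 1; omega
      rw [e3]; ring
  refine ⟨g, hg, hgm, fun r => by rw [← deriv_mom hu h, hM'], ?_⟩
  intro r hr
  -- the vector field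
  let F : E n → E n := fun x => pev h x • gr u x - u x • pgrad h x
  have hc1 : ContDiff ℝ 1 (gr u) := Vale.Agent.P225.contDiff_gr (contDiff_infty.1 hu 2) (by norm_num)
  have hc2 : ContDiff ℝ 1 (pgrad h) := Vale.Agent.P225.pgrad_contDiff h
  have hu1 : ContDiff ℝ 1 u := hu.of_le (by simp)
  have hF1 : ContDiff ℝ 1 (fun x => pev h x • gr u x) :=
    (Vale.Agent.P225.pev_contDiff h).smul hc1
  have hF2 : ContDiff ℝ 1 (fun x => u x • pgrad h x) := hu1.smul hc2
  have hF : ContDiff ℝ 1 F := hF1.sub hF2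
  have hdiv : ∀ x, divg F x = pev h x * lap u x := by
    intro x
    have d1 : DifferentiableAt ℝ (fun x => pev h x • gr u x) x := hF1.differentiable (by simp) x
    have d2 : DifferentiableAt ℝ (fun x => u x • pgrad h x) x := hF2.differentiable (by simp) x
    have e1 := Vale.Agent.P225.divg_sub d1 d2
    have e2 := Vale.Agent.P225.divg_smul (u := pev h) (F := gr u) (x := x)
      ((Vale.Agent.P225.pev_contDiff h (k := 1)).differentiable (by simp) x)
      (hc1.differentiable (by simp) x)
    have e3 := Vale.Agent.P225.divg_smul (u := u) (F := pgrad h) (x := x)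
      (hu1.differentiable (by simp) x) (hc2.differentiable (by simp) x)
    show divg (fun y => pev h y • gr u y - u y • pgrad h y) x = _
    rw [e1, e2, e3, Vale.Agent.P225.gr_pev, Vale.Agent.P225.divg_pgrad, hh.2,
      divg_gr (contDiff_infty.1 hu 2)]
    have e4 : pev (0 : MvPolynomial (Fin n) ℝ) x = 0 := by simp [pev]
    rw [e4, real_inner_comm]
    ring
  have h1 := Vale.Agent.P225.hasDerivAt_flux (le_refl (0 : ℝ)) (F := F) hF.contDiffOn hr
  have hsd : sph (divg F) r = r ^ l * mom (lap u) h r := by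
    rw [← sph_mul_pev hh]
    unfold sph
    congr 1
    funext θ
    rw [hdiv]
    ring
  rw [hsd] at h1
  have hflux : ∀ t, 0 < t → flux F t = t ^ (n - 1 + 2 * l) * deriv g t := by
    intro t ht
    unfold flux
    have e1 : sph (fun x => inner ℝ (F x) x / ‖x‖) t =
        t⁻¹ * (t ^ l * (mom (fun x => fderiv ℝ u x x) h t - l * mom u h t)) := by
      have e2 : sph (fun x => inner ℝ (F x) x / ‖x‖) t = sph (fun x =>
          t⁻¹ * ((fderiv ℝ u x x - l * u x) * pev h x)) t := by
        apply Vale.Agent.P225.sph_congr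
        intro x hx
        rw [abs_of_pos ht] at hx
        rw [hx]
        simp only [F, inner_sub_left, real_inner_smul_left]
        rw [Vale.Agent.P225.inner_gr, Vale.Agent.P225.euler hh.1]
        field_simp
      rw [e2, Vale.Agent.P225.sph_const_mul, sph_mul_pev hh]
      congr 2
      unfold mom
      rw [← integral_const_mul, ← integral_sub]
      · congr 1
        funext θ
        ring
      · exact Vale.Agent.P225.integrable_sig ((((contDiff_eul hu).continuous).comp (by fun_prop)).mul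
          ((Vale.Agent.P225.pev_cont _).comp continuous_subtype_val))
      · exact Vale.Agent.P225.integrable_sig (continuous_const.mul
          ((hu.continuous.comp (by fun_prop)).mul
          ((Vale.Agent.P225.pev_cont _).comp continuous_subtype_val)))
    rw [e1, ← deriv_mom hu h, hM', hgm]
    have hn1 : n - 1 + 2 * l = (n - 1) + l + l := by ring
    rw [hn1, pow_add, pow_add]
    field_simp
    ring
  have h2 : HasDerivAt (fun t : ℝ => t ^ (n - 1 + 2 * l) * deriv g t)
      (r ^ (n - 1) * (r ^ l * mom (lap u) h r)) r := by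
    refine h1.congr_of_eventuallyEq ?_
    filter_upwards [isOpen_Ioi.mem_nhds hr] with t ht
    exact (hflux t ht).symm
  have h3 : HasDerivAt (fun t : ℝ => t ^ (n - 1 + 2 * l) * deriv g t)
      (((n - 1 + 2 * l : ℕ) * r ^ (n - 1 + 2 * l - 1)) * deriv g r +
        r ^ (n - 1 + 2 * l) * deriv (deriv g) r) r :=
    (hasDerivAt_pow _ r).mul (hgdd r)
  have h4 := h2.unique h3
  have e5 : r ^ (n - 1 + 2 * l) = r ^ (n - 1 + 2 * l - 1) * r := by
    rw [← pow_succ]; congr 1; omega
  have e6 : r ^ (n - 1 + 2 * l) = r ^ (n - 1) * r ^ l * r ^ l := by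
    rw [← pow_add, ← pow_add]; congr 1; ring
  have e7 : ((n - 1 + 2 * l : ℕ) : ℝ) = n - 1 + 2 * l := by
    have : 1 ≤ n := by omega
    push_cast [this]
    ring
  rw [e7] at h4
  have hp1 : r ^ (n - 1) ≠ 0 := by positivity
  have hp2 : r ^ l ≠ 0 := by positivity
  have e8 : r ^ (n - 1 + 2 * l - 1) = r ^ (n - 1) * r ^ l * r ^ l / r := by
    rw [← e6, e5]; field_simp
  rw [e8, e6] at h4
  have h5 : r ^ (n - 1) * r ^ l * mom (lap u) h r =
      r ^ (n - 1) * r ^ l * (r ^ l * (deriv (deriv g) r + (n - 1 + 2 * l) / r * deriv g r)) := by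
    rw [mul_assoc, h4]
    field_simp
    ring
  exact mul_left_cancel₀ (mul_ne_zero hp1 hp2) h5

end Vale.Agent.P139.H889
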