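import Vale.Agent.P139.H889.Ang2

/-!
Angular moments of complex valued functions: radial form of the Laplacian and of `x · ∇`,
completeness of the homogeneous harmonic polynomials.
-/

set_option linter.all false

namespace Vale.Agent.P139.H889

open MeasureTheory Set Metric Filter Topology MvPolynomial
open Vale.Agent.P225 (E sig sph gr divg pev pgrad plap Harm flux)
open scoped ContDiff

variable {n : ℕ}

/-- The moment of a complex function `u` on the sphere of radius `r` against `h`. -/
noncomputable def momC (u : E n → ℂ) (h : MvPolynomial (Fin n) ℝ) (r : ℝ) : ℂ :=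
  ∫ θ : sphere (0 : E n) 1, u (r • (θ : E n)) * (pev h (θ : E n) : ℂ) ∂(sig n)

/-- the Laplacian of a complex function -/
noncomputable def lapC (u : E n → ℂ) (x : E n) : ℂ :=
  ∑ i, fderiv ℝ (fun y => fderiv ℝ u y (ee i)) x (ee i)

theorem intC {f : sphere (0 : E n) 1 → ℂ} (hf : Continuous f) : Integrable f (sig n) :=
  hf.integrable_of_hasCompactSupport (HasCompactSupport.of_compactSpace _)

theorem cont_pevC (h : MvPolynomial (Fin n) ℝ) :
    Continuous (fun θ : sphere (0 : E n) 1 => (pev h (θ : E n) : ℂ)) :=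
  Complex.continuous_ofReal.comp ((Vale.Agent.P225.pev_cont h).comp continuous_subtype_val)

/-- continuity on the sphere of radius `r` -/
def ContSph (u : E n → ℂ) (r : ℝ) : Prop :=
  Continuous (fun θ : sphere (0 : E n) 1 => u (r • (θ : E n)))

theorem contSph_of_continuous {u : E n → ℂ} (hu : Continuous u) (r : ℝ) : ContSph u r :=
  hu.comp (by fun_prop)

theorem momC_int {u : E n → ℂ} {r : ℝ} (hu : ContSph u r) (h : MvPolynomial (Fin n) ℝ) :
    Integrable (fun θ : sphere (0 : E n) 1 => u (r • (θ : E n)) * (pev h (θ : E n) : ℂ)) (sig n) :=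
  intC (hu.mul (cont_pevC h))

theorem momC_re {u : E n → ℂ} {r : ℝ} (hu : ContSph u r) (h : MvPolynomial (Fin n) ℝ) :
    (momC u h r).re = mom (fun x => (u x).re) h r := by
  unfold momC mom
  have := integral_re (momC_int hu h)
  simp only [RCLike.re_eq_complex_re] at this
  rw [← this]
  congr 1
  funext θ
  simp

theorem momC_im {u : E n → ℂ} {r : ℝ} (hu : ContSph u r) (h : MvPolynomial (Fin n) ℝ) :
    (momC u h r).im = mom (fun x => (u x).im) h r := by
  unfold momC mom
  have := integral_im (momC_int hu h)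
  simp only [RCLike.im_eq_complex_im] at this
  rw [← this]
  congr 1
  funext θ
  simp

theorem momC_add {u v : E n → ℂ} {r : ℝ} (hu : ContSph u r) (hv : ContSph v r)
    (h : MvPolynomial (Fin n) ℝ) :
    momC (fun x => u x + v x) h r = momC u h r + momC v h r := by
  unfold momC
  rw [← integral_add (momC_int hu h) (momC_int hv h)]
  congr 1
  funext θ
  ring

theorem momC_sub {u v : E n → ℂ} {r : ℝ} (hu : ContSph u r) (hv : ContSph v r)
    (h : MvPolynomial (Fin n) ℝ) :
    momC (fun x => u x - v x) h r = momC u h r - momC v h r := by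
  unfold momC
  rw [← integral_sub (momC_int hu h) (momC_int hv h)]
  congr 1
  funext θ
  ring

theorem momC_const_mul (c : ℂ) (u : E n → ℂ) (h : MvPolynomial (Fin n) ℝ) (r : ℝ) :
    momC (fun x => c * u x) h r = c * momC u h r := by
  unfold momC
  rw [← integral_const_mul]
  congr 1
  funext θ
  ring

theorem momC_radial_mul (c : ℝ → ℂ) (u : E n → ℂ) (h : MvPolynomial (Fin n) ℝ) {r : ℝ}
    (hr : 0 ≤ r) : momC (fun x => c ‖x‖ * u x) h r = c r * momC u h r := by
  unfold momC
  rw [← integral_const_mul]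
  congr 1
  funext θ
  beta_reduce
  rw [Vale.Agent.P225.norm_smul_sphere hr]
  ring

theorem momC_congr {u v : E n → ℂ} {r : ℝ} (huv : ∀ x, ‖x‖ = |r| → u x = v x)
    (h : MvPolynomial (Fin n) ℝ) : momC u h r = momC v h r := by
  unfold momC
  congr 1
  funext θ
  rw [huv]
  rw [norm_smul, norm_eq_of_mem_sphere, mul_one, Real.norm_eq_abs]

/-! ### complex versions of the radial identities -/

theorem fderiv_re {u : E n → ℂ} {x : E n} (hu : DifferentiableAt ℝ u x) (v : E n) :
    fderiv ℝ (fun y => (u y).re) x v = (fderiv ℝ u x v).re := by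
  have h1 : HasFDerivAt (fun y => Complex.reCLM (u y)) (Complex.reCLM.comp (fderiv ℝ u x)) x :=
    Complex.reCLM.hasFDerivAt.comp x hu.hasFDerivAt
  have h2 : (fun y => Complex.reCLM (u y)) = fun y => (u y).re := rfl
  rw [h2] at h1
  rw [h1.fderiv]
  rfl

theorem fderiv_im {u : E n → ℂ} {x : E n} (hu : DifferentiableAt ℝ u x) (v : E n) :
    fderiv ℝ (fun y => (u y).im) x v = (fderiv ℝ u x v).im := by
  have h1 : HasFDerivAt (fun y => Complex.imCLM (u y)) (Complex.imCLM.comp (fderiv ℝ u x)) x :=
    Complex.imCLM.hasFDerivAt.comp x hu.hasFDerivAt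
  have h2 : (fun y => Complex.imCLM (u y)) = fun y => (u y).im := rfl
  rw [h2] at h1
  rw [h1.fderiv]
  rfl

theorem contDiff_reC {u : E n → ℂ} (hu : ContDiff ℝ ∞ u) : ContDiff ℝ ∞ (fun x => (u x).re) :=
  Complex.reCLM.contDiff.comp hu

theorem contDiff_imC {u : E n → ℂ} (hu : ContDiff ℝ ∞ u) : ContDiff ℝ ∞ (fun x => (u x).im) :=
  Complex.imCLM.contDiff.comp hu

theorem lapC_re {u : E n → ℂ} (hu : ContDiff ℝ ∞ u) (x : E n) :
    (lapC u x).re = lap (fun y => (u y).re) x := by
  unfold lapC lap
  rw [Complex.re_sum]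
  refine Finset.sum_congr rfl fun i _ => ?_
  have hd : ContDiff ℝ ∞ (fun y => fderiv ℝ u y (ee i)) :=
    (hu.fderiv_right (m := ∞) (by simp)).clm_apply contDiff_const
  have h1 : (fun y => fderiv ℝ (fun y => (u y).re) y (ee i)) =
      fun y => (fderiv ℝ u y (ee i)).re := by
    funext y
    exact fderiv_re (hu.differentiable (by simp) y) _
  rw [h1]
  exact (fderiv_re (hd.differentiable (by simp) x) _).symm

theorem lapC_im {u : E n → ℂ} (hu : ContDiff ℝ ∞ u) (x : E n) :
    (lapC u x).im = lap (fun y => (u y).im) x := by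
  unfold lapC lap
  rw [Complex.im_sum]
  refine Finset.sum_congr rfl fun i _ => ?_
  have hd : ContDiff ℝ ∞ (fun y => fderiv ℝ u y (ee i)) :=
    (hu.fderiv_right (m := ∞) (by simp)).clm_apply contDiff_const
  have h1 : (fun y => fderiv ℝ (fun y => (u y).im) y (ee i)) =
      fun y => (fderiv ℝ u y (ee i)).im := by
    funext y
    exact fderiv_im (hu.differentiable (by simp) y) _
  rw [h1]
  exact (fderiv_im (hd.differentiable (by simp) x) _).symm

theorem contDiff_lapC {u : E n → ℂ} (hu : ContDiff ℝ ∞ u) : ContDiff ℝ ∞ (lapC u) := by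
  unfold lapC
  apply ContDiff.sum
  intro i _
  have h1 : ContDiff ℝ ∞ (fun y => fderiv ℝ u y (ee i)) :=
    (hu.fderiv_right (m := ∞) (by simp)).clm_apply contDiff_const
  exact (h1.fderiv_right (m := ∞) (by simp)).clm_apply contDiff_const

theorem contDiff_eulC {u : E n → ℂ} (hu : ContDiff ℝ ∞ u) :
    ContDiff ℝ ∞ (fun x => fderiv ℝ u x x) :=
  (hu.fderiv_right (m := ∞) (by simp)).clm_apply contDiff_id

/-- **Radial reduction.** For a smooth function `u` and a homogeneous harmonic polynomial `h` of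
degree `l`, the moment of `u` against `h` is `r ^ l g(r)` with a smooth function `g`, the moment of
`x · ∇ u` is `r ^ l (r g' + l g)` and that of the Laplacian is `r ^ l (g'' + (n - 1 + 2 l) / r g')`. -/
theorem radial_reduction [NeZero n] (hn : 2 ≤ n) {l : ℕ} {h : MvPolynomial (Fin n) ℝ}
    (hh : Harm l h) {u : E n → ℂ} (hu : ContDiff ℝ ∞ u) :
    ∃ g : ℝ → ℂ, ContDiff ℝ ∞ g ∧ (∀ r, momC u h r = (r : ℂ) ^ l * g r) ∧
      (∀ r, momC (fun x => fderiv ℝ u x x) h r = (r : ℂ) ^ l * (r * deriv g r + l * g r)) ∧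
      ∀ r > 0, momC (lapC u) h r =
        (r : ℂ) ^ l * (deriv (deriv g) r + (n - 1 + 2 * l) / r * deriv g r) := by
  obtain ⟨g1, a1, a2, a3, a4⟩ := radial_real hn hh (contDiff_reC hu)
  obtain ⟨g2, b1, b2, b3, b4⟩ := radial_real hn hh (contDiff_imC hu)
  let g : ℝ → ℂ := fun r => (g1 r : ℂ) + (g2 r : ℂ) * Complex.I
  have hder : ∀ {p q : ℝ → ℝ}, ContDiff ℝ ∞ p → ContDiff ℝ ∞ q → ∀ r,
      deriv (fun r => (p r : ℂ) + (q r : ℂ) * Complex.I) r =
        ((deriv p r : ℝ) : ℂ) + ((deriv q r : ℝ) : ℂ) * Complex.I := by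
    intro p q hp hq r
    have e1 : HasDerivAt (fun r => (p r : ℂ)) ((deriv p r : ℝ) : ℂ) r :=
      ((hp.differentiable (by simp) r).hasDerivAt).ofReal_comp
    have e2 : HasDerivAt (fun r => (q r : ℂ)) ((deriv q r : ℝ) : ℂ) r :=
      ((hq.differentiable (by simp) r).hasDerivAt).ofReal_comp
    exact (e1.add (e2.mul_const _)).deriv
  have c1 : ContDiff ℝ ∞ (deriv g1) := (contDiff_infty_iff_deriv.1 a1).2
  have c2 : ContDiff ℝ ∞ (deriv g2) := (contDiff_infty_iff_deriv.1 b1).2
  have hg' : deriv g = fun r => ((deriv g1 r : ℝ) : ℂ) + ((deriv g2 r : ℝ) : ℂ) * Complex.I :=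
    funext (hder a1 b1)
  have hg'' : ∀ r, deriv (deriv g) r =
      ((deriv (deriv g1) r : ℝ) : ℂ) + ((deriv (deriv g2) r : ℝ) : ℂ) * Complex.I := by
    intro r
    rw [hg']
    exact hder c1 c2 r
  refine ⟨g, ?_, ?_, ?_, ?_⟩
  · exact (Complex.ofRealCLM.contDiff.comp a1).add
      ((Complex.ofRealCLM.contDiff.comp b1).mul contDiff_const)
  · intro r
    apply Complex.ext
    · rw [momC_re (contSph_of_continuous hu.continuous r), a2, ← Complex.ofReal_pow]
      generalize r ^ l = w
      simp [g]
    · rw [momC_im (contSph_of_continuous hu.continuous r), b2, ← Complex.ofReal_pow]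
      generalize r ^ l = w
      simp [g]
  · intro r
    have hc := contSph_of_continuous (contDiff_eulC hu).continuous r
    have e1 : (fun x => (fderiv ℝ u x x).re) = fun x => fderiv ℝ (fun y => (u y).re) x x := by
      funext x
      exact (fderiv_re (hu.differentiable (by simp) x) _).symm
    have e2 : (fun x => (fderiv ℝ u x x).im) = fun x => fderiv ℝ (fun y => (u y).im) x x := by
      funext x
      exact (fderiv_im (hu.differentiable (by simp) x) _).symm
    apply Complex.ext
    · rw [momC_re hc, e1, a3, hg', ← Complex.ofReal_pow]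
      generalize r ^ l = w
      simp [g]
    · rw [momC_im hc, e2, b3, hg', ← Complex.ofReal_pow]
      generalize r ^ l = w
      simp [g]
  · intro r hr
    have hc := contSph_of_continuous (contDiff_lapC hu).continuous r
    have e1 : (fun x => (lapC u x).re) = lap (fun y => (u y).re) := funext (lapC_re hu)
    have e2 : (fun x => (lapC u x).im) = lap (fun y => (u y).im) := funext (lapC_im hu)
    have e3 : ((n : ℂ) - 1 + 2 * l) / r = (((n - 1 + 2 * l) / r : ℝ) : ℂ) := by
      push_cast; ring
    apply Complex.ext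
    · rw [momC_re hc, e1, a4 r hr, hg'', hg', e3, ← Complex.ofReal_pow]
      generalize r ^ l = w
      simp
    · rw [momC_im hc, e2, b4 r hr, hg'', hg', e3, ← Complex.ofReal_pow]
      generalize r ^ l = w
      simp

/-! ### completeness -/

theorem complete_real [NeZero n] (hn : 2 ≤ n) {f : sphere (0 : E n) 1 → ℝ} (hf : Continuous f)
    (h0 : ∀ l : ℕ, ∀ h : MvPolynomial (Fin n) ℝ, Harm l h →
      ∫ θ, f θ * pev h (θ : E n) ∂(sig n) = 0) : f = 0 := by
  -- orthogonal to all polynomials
  have hp : ∀ p : MvPolynomial (Fin n) ℝ, ∫ θ, f θ * pev p (θ : E n) ∂(sig n) = 0 := by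
    intro p
    obtain ⟨L, q, hq1, hq2⟩ := Vale.Agent.P225.harm_decomp' hn p
    have e1 : ∀ θ : sphere (0 : E n) 1, f θ * pev p (θ : E n) =
        ∑ l ∈ Finset.range L, f θ * pev (q l) (θ : E n) := by
      intro θ
      rw [hq2 _ (norm_eq_of_mem_sphere θ), Finset.mul_sum]
    simp only [e1]
    rw [integral_finsetSum]
    · exact Finset.sum_eq_zero fun l _ => h0 l (q l) (hq1 l)
    · intro l _
      exact Vale.Agent.P225.integrable_sig
        (hf.mul ((Vale.Agent.P225.pev_cont _).comp continuous_subtype_val))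
  have hsq : ∫ θ, f θ * f θ ∂(sig n) = 0 := by
    have hle : ∀ ε > 0, |∫ θ, f θ * f θ ∂(sig n)| ≤ ε * ∫ θ, |f θ| ∂(sig n) := by
      intro ε hε
      obtain ⟨p, hpe⟩ := Vale.Agent.P225.poly_dense hf hε
      have hpc : Continuous fun θ : sphere (0 : E n) 1 => pev p (θ : E n) :=
        (Vale.Agent.P225.pev_cont _).comp continuous_subtype_val
      have e1 : ∫ θ, f θ * f θ ∂(sig n) =
          ∫ θ, f θ * (f θ - pev p (θ : E n)) ∂(sig n) := by
        have e2 : ∀ θ : sphere (0 : E n) 1, f θ * (f θ - pev p (θ : E n)) =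
            f θ * f θ - f θ * pev p (θ : E n) := fun θ => by ring
        simp only [e2]
        have e3 : ∫ θ, (f θ * f θ - f θ * pev p (θ : E n)) ∂(sig n) =
            ∫ θ, f θ * f θ ∂(sig n) - ∫ θ, f θ * pev p (θ : E n) ∂(sig n) :=
          integral_sub (Vale.Agent.P225.integrable_sig (hf.mul hf))
            (Vale.Agent.P225.integrable_sig (hf.mul hpc))
        rw [e3, hp p, sub_zero]
      rw [e1]
      refine (abs_integral_le_integral_abs).trans ?_
      rw [← integral_const_mul]
      apply integral_mono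
      · exact Vale.Agent.P225.integrable_sig ((hf.mul (hf.sub hpc)).abs)
      · exact Vale.Agent.P225.integrable_sig (continuous_const.mul hf.abs)
      · intro θ
        beta_reduce
        rw [abs_mul, mul_comm]
        exact mul_le_mul_of_nonneg_right (hpe θ) (abs_nonneg _)
    have hI : 0 ≤ ∫ θ, |f θ| ∂(sig n) := integral_nonneg fun _ => abs_nonneg _
    have : |∫ θ, f θ * f θ ∂(sig n)| ≤ 0 := by
      by_contra hcon
      push Not at hcon
      set A := |∫ θ, f θ * f θ ∂(sig n)| with hA
      set B := ∫ θ, |f θ| ∂(sig n) with hB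
      have h1 := hle (A / (2 * (B + 1))) (by positivity)
      have h2 : A / (2 * (B + 1)) * B < A := by
        rw [div_mul_eq_mul_div, div_lt_iff₀ (by positivity)]
        nlinarith
      linarith
    exact abs_eq_zero.1 (le_antisymm this (abs_nonneg _))
  have hae := (integral_eq_zero_iff_of_nonneg (μ := sig n) (f := fun θ => f θ * f θ)
    (fun θ => mul_self_nonneg _) (Vale.Agent.P225.integrable_sig (hf.mul hf))).1 hsq
  have heq : (fun θ : sphere (0 : E n) 1 => f θ * f θ) = fun _ => 0 :=
    (Continuous.ae_eq_iff_eq (sig n) (hf.mul hf) continuous_const).1 hae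
  funext θ
  exact mul_self_eq_zero.1 (congrFun heq θ)

/-- **Completeness**: a function, continuous on the sphere of radius `r`, whose moments against all
homogeneous harmonic polynomials vanish there, vanishes there. -/
theorem complete [NeZero n] (hn : 2 ≤ n) {u : E n → ℂ} {r : ℝ} (hr : 0 < r) (hu : ContSph u r)
    (h0 : ∀ l : ℕ, ∀ h : MvPolynomial (Fin n) ℝ, Harm l h → momC u h r = 0) :
    ∀ x : E n, ‖x‖ = r → u x = 0 := by
  have hre : (fun θ : sphere (0 : E n) 1 => (u (r • (θ : E n))).re) = 0 := by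
    apply complete_real hn (Complex.continuous_re.comp hu)
    intro l h hh
    have := momC_re hu h
    rw [h0 l h hh] at this
    exact this.symm
  have him : (fun θ : sphere (0 : E n) 1 => (u (r • (θ : E n))).im) = 0 := by
    apply complete_real hn (Complex.continuous_im.comp hu)
    intro l h hh
    have := momC_im hu h
    rw [h0 l h hh] at this
    exact this.symm
  intro x hx
  have h1 : ‖(r⁻¹ • x : E n)‖ = 1 := by
    rw [norm_smul, hx, Real.norm_eq_abs, abs_of_pos (inv_pos.2 hr)]
    field_simp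
  have e1 := congrFun hre ⟨r⁻¹ • x, by rw [mem_sphere_zero_iff_norm]; exact h1⟩
  have e2 := congrFun him ⟨r⁻¹ • x, by rw [mem_sphere_zero_iff_norm]; exact h1⟩
  simp only [smul_smul, mul_inv_cancel₀ hr.ne', one_smul, Pi.zero_apply] at e1 e2
  exact Complex.ext e1 e2

end Vale.Agent.P139.H889
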