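import Vale.Agent.P139.H889.Ang3

/-!
Angular moments: bounds for the derivatives, reconstruction of a function from its moments of
degree `0` and `1` when the others vanish.
-/

set_option linter.all false

namespace Vale.Agent.P139.H889

open MeasureTheory Set Metric Filter Topology MvPolynomial
open Vale.Agent.P225 (E sig sph gr divg pev pgrad plap Harm flux)
open scoped ContDiff

variable {n : ℕ}

/-- the integrand -/
noncomputable def FFC (u : E n → ℂ) (h : MvPolynomial (Fin n) ℝ) : ℝ × E n → ℂ :=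
  fun p => u (p.1 • p.2) * (pev h p.2 : ℂ)

theorem contDiff_FFC {u : E n → ℂ} (hu : ContDiff ℝ ∞ u) (h : MvPolynomial (Fin n) ℝ) :
    ContDiff ℝ ∞ (FFC u h) :=
  (hu.comp (contDiff_fst.smul contDiff_snd)).mul
    (Complex.ofRealCLM.contDiff.comp ((Vale.Agent.P225.pev_contDiff h).comp contDiff_snd))

theorem contDiff_momC {u : E n → ℂ} (hu : ContDiff ℝ ∞ u) (h : MvPolynomial (Fin n) ℝ) :
    ContDiff ℝ ∞ (momC u h) :=
  contDiff_par (α := sphere (0 : E n) 1) (μ := sig n) (ι := fun θ => (θ : E n))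
    continuous_subtype_val (contDiff_FFC hu h)

theorem iteratedDeriv_momC {u : E n → ℂ} (hu : ContDiff ℝ ∞ u) (h : MvPolynomial (Fin n) ℝ)
    (k : ℕ) (r : ℝ) :
    iteratedDeriv k (momC u h) r = ∫ θ : sphere (0 : E n) 1,
      iteratedFDeriv ℝ k u (r • (θ : E n)) (fun _ => (θ : E n)) * (pev h (θ : E n) : ℂ) ∂(sig n) := by
  have h1 := iteratedDeriv_par (contDiff_FFC hu h) k
  have h2 : momC u h = fun r => ∫ θ : sphere (0 : E n) 1, FFC u h (r, (θ : E n)) ∂(sig n) := rfl
  rw [h2, h1]
  beta_reduce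
  congr 1
  funext θ
  rw [dd_eq (contDiff_FFC hu h)]
  have h3 : (fun s : ℝ => FFC u h (s, (θ : E n))) =
      fun s : ℝ => u (s • (θ : E n)) * (pev h (θ : E n) : ℂ) := rfl
  rw [h3]
  have h4 : ContDiff ℝ ∞ (fun s : ℝ => u (s • (θ : E n))) :=
    hu.comp (contDiff_id.smul contDiff_const)
  have h5 : iteratedDeriv k (fun s : ℝ => u (s • (θ : E n)) * (pev h (θ : E n) : ℂ)) r =
      iteratedDeriv k (fun s : ℝ => u (s • (θ : E n))) r * (pev h (θ : E n) : ℂ) := by
    have := iteratedDeriv_const_mul (n := k) (x := r) ((pev h (θ : E n) : ℝ) : ℂ)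
      (f := fun s : ℝ => u (s • (θ : E n)))
      ((h4.of_le (by exact_mod_cast le_top)).contDiffAt)
    simp only [mul_comm _ ((pev h (θ : E n) : ℝ) : ℂ)]
    exact this
  rw [h5]
  congr 1
  let L : ℝ →L[ℝ] E n := ContinuousLinearMap.toSpanSingleton ℝ (θ : E n)
  have h6 : (fun s : ℝ => u (s • (θ : E n))) = u ∘ L := by
    funext s; simp [L]
  rw [h6, iteratedDeriv_eq_iteratedFDeriv,
    L.iteratedFDeriv_comp_right hu r (i := k) (by exact_mod_cast le_top)]
  simp [L]

/-- the derivatives of the moments are bounded by the derivatives of the function -/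
theorem norm_iteratedDeriv_momC_le {u : E n → ℂ} (hu : ContDiff ℝ ∞ u)
    (h : MvPolynomial (Fin n) ℝ) (k : ℕ) (r : ℝ) {B : ℝ}
    (hB : ∀ x : E n, ‖x‖ = |r| → ‖iteratedFDeriv ℝ k u x‖ ≤ B) :
    ‖iteratedDeriv k (momC u h) r‖ ≤
      (∫ θ : sphere (0 : E n) 1, |pev h (θ : E n)| ∂(sig n)) * B := by
  rw [iteratedDeriv_momC hu]
  refine (norm_integral_le_integral_norm _).trans ?_
  rw [← integral_mul_const]
  have hk : Continuous (iteratedFDeriv ℝ k u) :=
    hu.continuous_iteratedFDeriv (by exact_mod_cast le_top)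
  apply integral_mono_of_nonneg
  · exact Filter.Eventually.of_forall fun θ => norm_nonneg _
  · exact Vale.Agent.P225.integrable_sig ((((Vale.Agent.P225.pev_cont h).comp
      continuous_subtype_val).abs).mul continuous_const)
  · refine Filter.Eventually.of_forall fun θ => ?_
    beta_reduce
    rw [norm_mul, Complex.norm_real, Real.norm_eq_abs, mul_comm]
    apply mul_le_mul_of_nonneg_left _ (abs_nonneg _)
    have h1 := (iteratedFDeriv ℝ k u (r • (θ : E n))).le_opNorm (fun _ => (θ : E n))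
    have h2 : ∏ _i : Fin k, ‖(θ : E n)‖ = 1 := by
      simp [norm_eq_of_mem_sphere]
    rw [h2, mul_one] at h1
    refine h1.trans (hB _ ?_)
    rw [norm_smul, norm_eq_of_mem_sphere, mul_one, Real.norm_eq_abs]

/-! ### polynomials of degree at most one -/

theorem harm_one_const : Harm (n := n) 0 (1 : MvPolynomial (Fin n) ℝ) := by
  refine ⟨isHomogeneous_one _ _, ?_⟩
  unfold plap
  simp

theorem harm_zero_eq {h : MvPolynomial (Fin n) ℝ} (hh : Harm 0 h) :
    ∃ a : ℝ, ∀ x : E n, pev h x = a := by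
  have h1 := hh.1
  rw [← totalDegree_zero_iff_isHomogeneous, totalDegree_eq_zero_iff_eq_C] at h1
  refine ⟨coeff 0 h, fun x => ?_⟩
  rw [h1]
  simp [pev]

theorem harm_X (i : Fin n) : Harm 1 (X i : MvPolynomial (Fin n) ℝ) := by
  refine ⟨isHomogeneous_X _ _, ?_⟩
  unfold plap
  apply Finset.sum_eq_zero
  intro k _
  by_cases hik : i = k
  · subst hik; rw [pderiv_X_self]; exact pderiv_one
  · rw [pderiv_X_of_ne hik, map_zero]

theorem pev_X (i : Fin n) (x : E n) : pev (X i) x = x i := by simp [pev]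

theorem harm_one_eq {h : MvPolynomial (Fin n) ℝ} (hh : Harm 1 h) :
    ∃ b : Fin n → ℝ, ∀ x : E n, pev h x = ∑ i, b i * x i := by
  have h1 : ∀ i, ∃ a : ℝ, ∀ x : E n, pev (pderiv i h) x = a := by
    intro i
    have h2 : (pderiv i h).IsHomogeneous 0 := hh.1.pderiv (i := i)
    rw [← totalDegree_zero_iff_isHomogeneous, totalDegree_eq_zero_iff_eq_C] at h2
    refine ⟨coeff 0 (pderiv i h), fun x => ?_⟩
    rw [h2]
    simp [pev]
  choose b hb using h1
  refine ⟨b, fun x => ?_⟩
  have h3 := Vale.Agent.P225.euler hh.1 x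
  rw [Nat.cast_one, one_mul] at h3
  rw [← h3]
  simp only [PiLp.inner_apply, RCLike.inner_apply, Real.ringHom_apply]
  refine Finset.sum_congr rfl fun i _ => ?_
  have : (pgrad h x) i = pev (pderiv i h) x := by simp [pgrad]
  rw [this, hb i]
  simp [mul_comm]

theorem harm_XX {i j : Fin n} (hij : i ≠ j) :
    Harm 2 (X i * X j : MvPolynomial (Fin n) ℝ) := by
  classical
  refine ⟨(isHomogeneous_X ℝ i).mul (isHomogeneous_X ℝ j), ?_⟩
  unfold plap
  apply Finset.sum_eq_zero
  intro k _
  simp only [Derivation.leibniz, smul_eq_mul]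
  by_cases hik : i = k
  · subst hik
    rw [pderiv_X_self, pderiv_X_of_ne (Ne.symm hij)]
    simp [pderiv_X_of_ne (R := ℝ) (Ne.symm hij)]
  · rw [pderiv_X_of_ne hik]
    by_cases hjk : j = k
    · subst hjk
      rw [pderiv_X_self]
      simp [pderiv_X_of_ne (R := ℝ) hik]
    · rw [pderiv_X_of_ne hjk]; simp

theorem harm_XX_sub (i j : Fin n) :
    Harm 2 (X i * X i - X j * X j : MvPolynomial (Fin n) ℝ) := by
  classical
  refine ⟨((isHomogeneous_X ℝ i).mul (isHomogeneous_X ℝ i)).sub
    ((isHomogeneous_X ℝ j).mul (isHomogeneous_X ℝ j)), ?_⟩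
  have h1 : ∀ m : Fin n, plap (X m * X m : MvPolynomial (Fin n) ℝ) = 2 := by
    intro m
    unfold plap
    rw [Finset.sum_eq_single m]
    · simp only [Derivation.leibniz, pderiv_X_self, smul_eq_mul, mul_one, map_add]
      norm_num
    · intro k _ hk
      simp [Derivation.leibniz, pderiv_X_of_ne (R := ℝ) (Ne.symm hk)]
    · intro hm
      exact absurd (Finset.mem_univ m) hm
  rw [Vale.Agent.P225.plap_sub, h1, h1, sub_self]

/-- mass of the sphere -/
noncomputable def kap (n : ℕ) : ℝ := ∫ _θ : sphere (0 : E n) 1, (1 : ℝ) ∂(sig n)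

theorem kap_pos [NeZero n] : 0 < kap n := by
  unfold kap
  rw [integral_const, smul_eq_mul, mul_one]
  have hne : Nontrivial (E n) := by
    have : 0 < n := Nat.pos_of_ne_zero (NeZero.ne n)
    have : Nonempty (Fin n) := ⟨⟨0, this⟩⟩
    infer_instance
  have h1 : sig n ≠ 0 := Measure.toSphere_ne_zero _
  have h2 : sig n univ ≠ 0 := by
    rw [Ne, Measure.measure_univ_eq_zero]; exact h1
  exact ENNReal.toReal_pos h2 (measure_ne_top _ _)

theorem int_coord_mul [NeZero n] (hn : 2 ≤ n) (i j : Fin n) :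
    ∫ θ : sphere (0 : E n) 1, (θ : E n) i * (θ : E n) j ∂(sig n) =
      if i = j then kap n / n else 0 := by
  have horth : ∀ q : MvPolynomial (Fin n) ℝ, Harm 2 q →
      ∫ θ : sphere (0 : E n) 1, pev q (θ : E n) ∂(sig n) = 0 := by
    intro q hq
    have h2 := Vale.Agent.P225.harm_orth hn (k := 2) (l := 0) (by norm_num) hq harm_one_const
    unfold sph at h2
    simpa [pev] using h2
  have hci : ∀ i : Fin n, Continuous fun θ : sphere (0 : E n) 1 => (θ : E n) i := fun i =>
    (EuclideanSpace.proj (𝕜 := ℝ) i).continuous.comp continuous_subtype_val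
  split_ifs with hij
  · subst hij
    have h1 : ∀ j : Fin n, ∫ θ : sphere (0 : E n) 1, (θ : E n) j * (θ : E n) j ∂(sig n) =
        ∫ θ : sphere (0 : E n) 1, (θ : E n) i * (θ : E n) i ∂(sig n) := by
      intro j
      have h2 := horth _ (harm_XX_sub j i)
      have h3 : ∀ θ : sphere (0 : E n) 1, pev (X j * X j - X i * X i) (θ : E n) =
          (θ : E n) j * (θ : E n) j - (θ : E n) i * (θ : E n) i := by
        intro θ; simp [pev]
      simp only [h3] at h2
      have h6 : ∫ θ : sphere (0 : E n) 1, ((θ : E n) j * (θ : E n) j -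
          (θ : E n) i * (θ : E n) i) ∂(sig n) =
          ∫ θ : sphere (0 : E n) 1, (θ : E n) j * (θ : E n) j ∂(sig n) -
            ∫ θ : sphere (0 : E n) 1, (θ : E n) i * (θ : E n) i ∂(sig n) :=
        integral_sub (Vale.Agent.P225.integrable_sig ((hci j).mul (hci j)))
          (Vale.Agent.P225.integrable_sig ((hci i).mul (hci i)))
      rw [h6] at h2
      linarith
    have h4 : kap n = ∑ j : Fin n, ∫ θ : sphere (0 : E n) 1, (θ : E n) j * (θ : E n) j ∂(sig n) := by
      rw [← integral_finsetSum]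
      · unfold kap
        congr 1
        funext θ
        have h5 := Vale.Agent.P225.pev_rsq (θ : E n)
        rw [norm_eq_of_mem_sphere] at h5
        simp only [Vale.Agent.P225.rsq, pev, map_sum, map_pow, eval_X] at h5
        rw [one_pow] at h5
        refine h5.symm.trans ?_
        exact Finset.sum_congr rfl fun j _ => by ring
      · intro j _
        exact Vale.Agent.P225.integrable_sig ((hci j).mul (hci j))
    rw [Finset.sum_congr rfl fun j _ => h1 j, Finset.sum_const, Finset.card_univ,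
      Fintype.card_fin, nsmul_eq_mul] at h4
    have hn0 : (n : ℝ) ≠ 0 := by
      have := NeZero.ne n
      exact_mod_cast this
    rw [h4]
    field_simp
  · have h2 := horth _ (harm_XX hij)
    have h3 : ∀ θ : sphere (0 : E n) 1, pev (X i * X j) (θ : E n) =
        (θ : E n) i * (θ : E n) j := by
      intro θ; simp [pev]
    simpa only [h3] using h2

end Vale.Agent.P139.H889
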