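import Vale.Agent.P139.H889.Ang4

/-!
Angular moments of functions of finite regularity.
-/

set_option linter.all false

namespace Vale.Agent.P139.H889

open MeasureTheory Set Metric Filter Topology MvPolynomial
open Vale.Agent.P225 (E sig sph gr divg pev pgrad plap Harm flux)
open scoped ContDiff

variable {n : ℕ} {G : Type*} [NormedAddCommGroup G] [NormedSpace ℝ G]

theorem contDiff_dd_fin {F : ℝ × E n → G} {k : ℕ} : ∀ {j : ℕ}, ContDiff ℝ (j + k : ℕ) F →
    ContDiff ℝ j (dd F k) := by
  induction k with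
  | zero => intro j hF; exact hF
  | succ k ih =>
    intro j hF
    have h1 : ContDiff ℝ (j + 1 : ℕ) (dd F k) := ih (by
      have : j + 1 + k = j + (k + 1) := by ring
      rw [this]; exact hF)
    exact (h1.fderiv_right (m := j) (by exact_mod_cast le_refl _)).clm_apply contDiff_const

theorem dd_eq_fin {F : ℝ × E n → G} {k : ℕ} (hF : ContDiff ℝ k F) (r : ℝ) (x : E n) :
    dd F k (r, x) = iteratedDeriv k (fun s => F (s, x)) r := by
  induction k generalizing r with
  | zero => simp [dd]
  | succ k ih =>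
    have hk : ContDiff ℝ k F := hF.of_le (by exact_mod_cast Nat.le_succ k)
    rw [iteratedDeriv_succ]
    have h1 : (iteratedDeriv k fun s => F (s, x)) = fun s => dd F k (s, x) := by
      funext s; exact (ih hk s).symm
    rw [h1]
    have h0 : ContDiff ℝ (1 : ℕ) (dd F k) := contDiff_dd_fin (by
      rw [add_comm]; exact hF)
    have h2 : HasFDerivAt (dd F k) (fderiv ℝ (dd F k) (r, x)) (r, x) :=
      (h0.differentiable (by simp) _).hasFDerivAt
    have h3 : HasDerivAt (fun s : ℝ => (s, x)) ((1 : ℝ), (0 : E n)) r :=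
      (hasDerivAt_id r).prodMk (hasDerivAt_const r x)
    have h4 := h2.comp_hasDerivAt r h3
    exact h4.deriv.symm

theorem iteratedDeriv_par_fin {F : ℝ × E n → G} {k : ℕ} (hF : ContDiff ℝ k F) :
    iteratedDeriv k (fun r => ∫ θ : sphere (0 : E n) 1, F (r, (θ : E n)) ∂(sig n)) =
      fun r => ∫ θ : sphere (0 : E n) 1, dd F k (r, (θ : E n)) ∂(sig n) := by
  induction k with
  | zero => simp [dd]
  | succ k ih =>
    have hk : ContDiff ℝ k F := hF.of_le (by exact_mod_cast Nat.le_succ k)
    rw [iteratedDeriv_succ, ih hk]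
    funext r
    have h1 : ContDiff ℝ (1 : ℕ) (dd F k) := contDiff_dd_fin (by rw [add_comm]; exact hF)
    exact (hasDerivAt_par (α := sphere (0 : E n) 1) (μ := sig n) (ι := fun θ => (θ : E n))
      (by exact_mod_cast h1) continuous_subtype_val r).deriv

theorem contDiff_FFC_fin {u : E n → ℂ} {k : ℕ} (hu : ContDiff ℝ k u)
    (h : MvPolynomial (Fin n) ℝ) : ContDiff ℝ k (FFC u h) :=
  (hu.comp (contDiff_fst.smul contDiff_snd)).mul
    (Complex.ofRealCLM.contDiff.comp ((Vale.Agent.P225.pev_contDiff h).comp contDiff_snd))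

theorem contDiff_momC_fin {u : E n → ℂ} {k : ℕ} (hu : ContDiff ℝ k u)
    (h : MvPolynomial (Fin n) ℝ) : ContDiff ℝ k (momC u h) :=
  contDiff_par_nat (α := sphere (0 : E n) 1) (μ := sig n) (ι := fun θ => (θ : E n))
    continuous_subtype_val k (contDiff_FFC_fin hu h)

theorem iteratedDeriv_momC_fin {u : E n → ℂ} {k : ℕ} (hu : ContDiff ℝ k u)
    (h : MvPolynomial (Fin n) ℝ) (r : ℝ) :
    iteratedDeriv k (momC u h) r = ∫ θ : sphere (0 : E n) 1,
      iteratedFDeriv ℝ k u (r • (θ : E n)) (fun _ => (θ : E n)) * (pev h (θ : E n) : ℂ) ∂(sig n) := by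
  have h1 := iteratedDeriv_par_fin (contDiff_FFC_fin hu h)
  have h2 : momC u h = fun r => ∫ θ : sphere (0 : E n) 1, FFC u h (r, (θ : E n)) ∂(sig n) := rfl
  rw [h2, h1]
  beta_reduce
  congr 1
  funext θ
  rw [dd_eq_fin (contDiff_FFC_fin hu h)]
  have h3 : (fun s : ℝ => FFC u h (s, (θ : E n))) =
      fun s : ℝ => u (s • (θ : E n)) * (pev h (θ : E n) : ℂ) := rfl
  rw [h3]
  have h4 : ContDiff ℝ k (fun s : ℝ => u (s • (θ : E n))) :=
    hu.comp (contDiff_id.smul contDiff_const)
  have h5 : iteratedDeriv k (fun s : ℝ => u (s • (θ : E n)) * (pev h (θ : E n) : ℂ)) r =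
      iteratedDeriv k (fun s : ℝ => u (s • (θ : E n))) r * (pev h (θ : E n) : ℂ) := by
    have := iteratedDeriv_const_mul (n := k) (x := r) ((pev h (θ : E n) : ℝ) : ℂ)
      (f := fun s : ℝ => u (s • (θ : E n))) h4.contDiffAt
    simp only [mul_comm _ ((pev h (θ : E n) : ℝ) : ℂ)]
    exact this
  rw [h5]
  congr 1
  let L : ℝ →L[ℝ] E n := ContinuousLinearMap.toSpanSingleton ℝ (θ : E n)
  have h6 : (fun s : ℝ => u (s • (θ : E n))) = u ∘ L := by
    funext s; simp [L]
  rw [h6, iteratedDeriv_eq_iteratedFDeriv,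
    L.iteratedFDeriv_comp_right hu r (i := k) (by exact_mod_cast le_refl _)]
  simp [L]

/-- the derivatives of the moments are bounded by the derivatives of the function -/
theorem norm_iteratedDeriv_momC_le_fin {u : E n → ℂ} {k : ℕ} (hu : ContDiff ℝ k u)
    (h : MvPolynomial (Fin n) ℝ) (r : ℝ) {B : ℝ}
    (hB : ∀ x : E n, ‖x‖ = |r| → ‖iteratedFDeriv ℝ k u x‖ ≤ B) :
    ‖iteratedDeriv k (momC u h) r‖ ≤
      (∫ θ : sphere (0 : E n) 1, |pev h (θ : E n)| ∂(sig n)) * B := by
  rw [iteratedDeriv_momC_fin hu]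
  refine (norm_integral_le_integral_norm _).trans ?_
  rw [← integral_mul_const]
  apply integral_mono_of_nonneg
  · exact Filter.Eventually.of_forall fun θ => norm_nonneg _
  · exact Vale.Agent.P225.integrable_sig ((((Vale.Agent.P225.pev_cont h).comp
      continuous_subtype_val).abs).mul continuous_const)
  · refine Filter.Eventually.of_forall fun θ => ?_
    beta_reduce
    rw [norm_mul, Complex.norm_real, Real.norm_eq_abs, mul_comm]
    apply mul_le_mul_of_nonneg_left _ (abs_nonneg _)
    have h1 := (iteratedFDeriv ℝ k u (r • (θ : E n))).le_opNorm (fun _ => (θ : E n))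
    have h2 : ∏ _i : Fin k, ‖(θ : E n)‖ = 1 := by
      simp [norm_eq_of_mem_sphere]
    rw [h2, mul_one] at h1
    refine h1.trans (hB _ ?_)
    rw [norm_smul, norm_eq_of_mem_sphere, mul_one, Real.norm_eq_abs]

/-! ### the radial identities for `C²` functions -/

theorem contDiff_FF_fin {u : E n → ℝ} {k : ℕ} (hu : ContDiff ℝ k u)
    (h : MvPolynomial (Fin n) ℝ) : ContDiff ℝ k (FF u h) :=
  (hu.comp (contDiff_fst.smul contDiff_snd)).mul
    ((Vale.Agent.P225.pev_contDiff h).comp contDiff_snd)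

theorem contDiff_mom_fin {u : E n → ℝ} {k : ℕ} (hu : ContDiff ℝ k u)
    (h : MvPolynomial (Fin n) ℝ) : ContDiff ℝ k (mom u h) :=
  contDiff_par_nat (α := sphere (0 : E n) 1) (μ := sig n) (ι := fun θ => (θ : E n))
    continuous_subtype_val k (contDiff_FF_fin hu h)

theorem deriv_mom_fin {u : E n → ℝ} (hu : ContDiff ℝ 1 u) (h : MvPolynomial (Fin n) ℝ) (r : ℝ) :
    r * deriv (mom u h) r = mom (fun x => fderiv ℝ u x x) h r := by
  have hF : ContDiff ℝ (1 : ℕ) (FF u h) := contDiff_FF_fin (by exact_mod_cast hu) h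
  have h1 := (hasDerivAt_par (α := sphere (0 : E n) 1) (μ := sig n) (ι := fun θ => (θ : E n))
    (F := FF u h) (by exact_mod_cast hF) continuous_subtype_val r).deriv
  have h2 : mom u h = fun r => ∫ θ : sphere (0 : E n) 1, FF u h (r, (θ : E n)) ∂(sig n) := rfl
  rw [h2, h1, ← integral_const_mul]
  unfold mom
  congr 1
  funext θ
  have h3 : HasFDerivAt (FF u h) (fderiv ℝ (FF u h) (r, (θ : E n))) (r, (θ : E n)) :=
    (hF.differentiable (by simp) _).hasFDerivAt
  have h4 : HasDerivAt (fun s : ℝ => (s, (θ : E n))) ((1 : ℝ), (0 : E n)) r :=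
    (hasDerivAt_id r).prodMk (hasDerivAt_const r _)
  have h5 := h3.comp_hasDerivAt r h4
  have h6 : HasDerivAt (fun s : ℝ => u (s • (θ : E n))) (fderiv ℝ u (r • (θ : E n)) (θ : E n)) r := by
    have e1 : HasFDerivAt u (fderiv ℝ u (r • (θ : E n))) (r • (θ : E n)) :=
      (hu.differentiable (by simp) _).hasFDerivAt
    have e2 : HasDerivAt (fun s : ℝ => s • (θ : E n)) (θ : E n) r := by
      simpa using (hasDerivAt_id r).smul_const (θ : E n)
    exact e1.comp_hasDerivAt r e2
  have h7 := h6.mul_const (pev h (θ : E n))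
  have h8 := h5.unique h7
  rw [h8]
  beta_reduce
  rw [map_smul, smul_eq_mul]
  ring

/-- The radial form of the Laplacian. -/
theorem lap_mom_fin [NeZero n] (hn : 2 ≤ n) {l : ℕ} {h : MvPolynomial (Fin n) ℝ}
    (hh : Harm l h) {u : E n → ℝ} (hu : ContDiff ℝ 2 u) {r : ℝ} (hr : 0 < r) :
    mom (lap u) h r = deriv (deriv (mom u h)) r + (n - 1) / r * deriv (mom u h) r -
      (l * (l + n - 2)) / r ^ 2 * mom u h r := by
  set M := mom u h with hM
  have hM2 : ContDiff ℝ 2 M := contDiff_mom_fin (k := 2) (by exact_mod_cast hu) h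
  have hMd : ∀ r, HasDerivAt M (deriv M r) r := fun r =>
    (hM2.differentiable (by simp) r).hasDerivAt
  have hM' : ContDiff ℝ 1 (deriv M) := by
    have h1 : ContDiff ℝ ((1 : WithTop ℕ∞) + 1) M := by
      have : (1 : WithTop ℕ∞) + 1 = 2 := by norm_num
      rw [this]; exact hM2
    exact (contDiff_succ_iff_deriv.1 h1).2.2
  have hMdd : ∀ r, HasDerivAt (deriv M) (deriv (deriv M) r) r := fun r =>
    (hM'.differentiable (by simp) r).hasDerivAt
  -- the vector field
  let F : E n → E n := fun x => pev h x • gr u x - u x • pgrad h x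
  have hc1 : ContDiff ℝ 1 (gr u) := Vale.Agent.P225.contDiff_gr hu (by norm_num)
  have hc2 : ContDiff ℝ 1 (pgrad h) := Vale.Agent.P225.pgrad_contDiff h
  have hu1 : ContDiff ℝ 1 u := hu.of_le (by norm_num)
  have hF1 : ContDiff ℝ 1 (fun x => pev h x • gr u x) :=
    (Vale.Agent.P225.pev_contDiff h).smul hc1
  have hF2 : ContDiff ℝ 1 (fun x => u x • pgrad h x) := hu1.smul hc2
  have hF : ContDiff ℝ 1 F := hF1.sub hF2
  have hdiv : ∀ x, divg F x = pev h x * lap u x := by
    intro x
    have d1 : DifferentiableAt ℝ (fun x => pev h x • gr u x) x := hF1.differentiable (by simp) x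
    have d2 : DifferentiableAt ℝ (fun x => u x • pgrad h x) x := hF2.differentiable (by simp) x
    have e1 := Vale.Agent.P225.divg_sub d1 d2
    have e2 := Vale.Agent.P225.divg_smul (u := pev h) (F := gr u) (x := x)
      ((Vale.Agent.P225.pev_contDiff h (k := 1)).differentiable (by simp) x)
      (hc1.differentiable (by simp) x)
    have e3 := Vale.Agent.P225.divg_smul (u := u) (F := pgrad h) (x := x)
      (hu1.differentiable (by simp) x) (hc2.differentiable (by simp) x)
    show divg (fun y => pev h y • gr u y - u y • pgrad h y) x = _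
    rw [e1, e2, e3, Vale.Agent.P225.gr_pev, Vale.Agent.P225.divg_pgrad, hh.2, divg_gr hu]
    have e4 : pev (0 : MvPolynomial (Fin n) ℝ) x = 0 := by simp [pev]
    rw [e4, real_inner_comm]
    ring
  have h1 := Vale.Agent.P225.hasDerivAt_flux (le_refl (0 : ℝ)) (F := F) hF.contDiffOn hr
  have hsd : sph (divg F) r = r ^ l * mom (lap u) h r := by
    rw [← sph_mul_pev hh]
    unfold sph
    congr 1
    funext θ
    rw [hdiv]
    ring
  rw [hsd] at h1
  have heul : Continuous (fun x => fderiv ℝ u x x) :=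
    (hu1.continuous_fderiv (by simp)).clm_apply continuous_id
  have hflux : ∀ t, 0 < t → flux F t =
      t ^ (n - 1 + l) * deriv M t - l * (t ^ (n - 2 + l) * M t) := by
    intro t ht
    unfold flux
    have e1 : sph (fun x => inner ℝ (F x) x / ‖x‖) t =
        t⁻¹ * (t ^ l * (mom (fun x => fderiv ℝ u x x) h t - l * mom u h t)) := by
      have e2 : sph (fun x => inner ℝ (F x) x / ‖x‖) t = sph (fun x =>
          t⁻¹ * ((fderiv ℝ u x x - l * u x) * pev h x)) t := by
        apply Vale.Agent.P225.sph_congr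
        intro x hx
        rw [abs_of_pos ht] at hx
        rw [hx]
        simp only [F, inner_sub_left, real_inner_smul_left]
        rw [Vale.Agent.P225.inner_gr, Vale.Agent.P225.euler hh.1]
        field_simp
      rw [e2, Vale.Agent.P225.sph_const_mul, sph_mul_pev hh]
      congr 2
      unfold mom
      rw [← integral_const_mul, ← integral_sub]
      · congr 1
        funext θ
        ring
      · exact Vale.Agent.P225.integrable_sig ((heul.comp (by fun_prop)).mul
          ((Vale.Agent.P225.pev_cont _).comp continuous_subtype_val))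
      · exact Vale.Agent.P225.integrable_sig (continuous_const.mul
          ((hu1.continuous.comp (by fun_prop)).mul
          ((Vale.Agent.P225.pev_cont _).comp continuous_subtype_val)))
    rw [e1, ← deriv_mom_fin hu1 h, ← hM]
    have hn1 : n - 1 = (n - 2) + 1 := by omega
    rw [hn1, pow_add, pow_add, pow_add, pow_one]
    field_simp
    ring
  have h2 : HasDerivAt (fun t : ℝ => t ^ (n - 1 + l) * deriv M t - l * (t ^ (n - 2 + l) * M t))
      (r ^ (n - 1) * (r ^ l * mom (lap u) h r)) r := by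
    refine h1.congr_of_eventuallyEq ?_
    filter_upwards [isOpen_Ioi.mem_nhds hr] with t ht
    exact (hflux t ht).symm
  have h3 : HasDerivAt (fun t : ℝ => t ^ (n - 1 + l) * deriv M t - l * (t ^ (n - 2 + l) * M t))
      ((((n - 1 + l : ℕ) * r ^ (n - 1 + l - 1)) * deriv M r +
        r ^ (n - 1 + l) * deriv (deriv M) r) -
        l * (((n - 2 + l : ℕ) * r ^ (n - 2 + l - 1)) * M r + r ^ (n - 2 + l) * deriv M r)) r :=
    ((hasDerivAt_pow _ r).mul (hMdd r)).sub (((hasDerivAt_pow _ r).mul (hMd r)).const_mul _)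
  have h4 := h2.unique h3
  have e7 : ((n - 1 + l : ℕ) : ℝ) = n - 1 + l := by
    have : 1 ≤ n := by omega
    push_cast [this]
    ring
  have e8 : ((n - 2 + l : ℕ) : ℝ) = n - 2 + l := by
    push_cast [hn]
    ring
  have hr0 : r ≠ 0 := hr.ne'
  have e9 : r ^ (n - 1) = r ^ (n - 2) * r := by
    rw [← pow_succ]; congr 1; omega
  have e5 : r ^ (n - 1 + l - 1) = r ^ (n - 2) * r ^ l := by
    rw [← pow_add]; congr 1; omega
  have e6 : r ^ (n - 1 + l) = r ^ (n - 2) * r ^ l * r := by
    rw [← pow_add, ← pow_succ]; congr 1; omega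
  have e10 : (l : ℝ) * (((n : ℝ) - 2 + l) * r ^ (n - 2 + l - 1) * M r) =
      l * (((n : ℝ) - 2 + l) * (r ^ (n - 2) * r ^ l / r) * M r) := by
    rcases Nat.eq_zero_or_pos l with h0 | h0
    · subst h0; simp
    · have : r ^ (n - 2 + l - 1) = r ^ (n - 2) * r ^ l / r := by
        rw [eq_div_iff hr0, ← pow_succ, ← pow_add]; congr 1; omega
      rw [this]
  have e11 : r ^ (n - 2 + l) = r ^ (n - 2) * r ^ l := pow_add _ _ _
  have hp : r ^ (n - 2) * r ^ l ≠ 0 := by positivity
  have h5 : (r ^ (n - 2) * r ^ l * r) * mom (lap u) h r =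
      (r ^ (n - 2) * r ^ l * r) * (deriv (deriv M) r + (n - 1) / r * deriv M r -
      (l * (l + n - 2)) / r ^ 2 * M r) := by
    have e12 : (r ^ (n - 2) * r ^ l * r) * mom (lap u) h r =
        r ^ (n - 1) * (r ^ l * mom (lap u) h r) := by rw [e9]; ring
    rw [e12, h4, e7, e8, e5, e6, e11, mul_add (l : ℝ), e10]
    field_simp
    ring
  exact mul_left_cancel₀ (mul_ne_zero hp hr0) h5

end Vale.Agent.P139.H889
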