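import Vale.Agent.P139.H889.Fin1
import Vale.Agent.P139.BU.Core

/-!
Angular moments of complex `C²` functions in the notation of `BU.Core`.
-/

set_option linter.all false

namespace Vale.Agent.P139.H889

open MeasureTheory Set Metric Filter Topology MvPolynomial
open Vale.Agent.P225 (E sig sph gr divg pev pgrad plap Harm flux)
open scoped ContDiff

variable {n : ℕ}

theorem lapC_eq (u : E n → ℂ) : lapC u = BU.lap u := rfl

theorem contDiff_one_of_two {u : E n → ℂ} (hu : ContDiff ℝ 2 u) : ContDiff ℝ 1 u :=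
  hu.of_le (by norm_num)

theorem contDiff_pd {u : E n → ℂ} (hu : ContDiff ℝ 2 u) (v : E n) :
    ContDiff ℝ 1 (fun y => fderiv ℝ u y v) :=
  (hu.fderiv_right (m := 1) (by norm_num)).clm_apply contDiff_const

theorem lapC_re_fin {u : E n → ℂ} (hu : ContDiff ℝ 2 u) (x : E n) :
    (lapC u x).re = lap (fun y => (u y).re) x := by
  unfold lapC lap
  rw [Complex.re_sum]
  refine Finset.sum_congr rfl fun i _ => ?_
  have h1 : (fun y => fderiv ℝ (fun y => (u y).re) y (ee i)) =
      fun y => (fderiv ℝ u y (ee i)).re := by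
    funext y
    exact fderiv_re (hu.differentiable (by simp) y) _
  rw [h1]
  exact (fderiv_re ((contDiff_pd hu _).differentiable (by simp) x) _).symm

theorem lapC_im_fin {u : E n → ℂ} (hu : ContDiff ℝ 2 u) (x : E n) :
    (lapC u x).im = lap (fun y => (u y).im) x := by
  unfold lapC lap
  rw [Complex.im_sum]
  refine Finset.sum_congr rfl fun i _ => ?_
  have h1 : (fun y => fderiv ℝ (fun y => (u y).im) y (ee i)) =
      fun y => (fderiv ℝ u y (ee i)).im := by
    funext y
    exact fderiv_im (hu.differentiable (by simp) y) _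
  rw [h1]
  exact (fderiv_im ((contDiff_pd hu _).differentiable (by simp) x) _).symm

theorem continuous_lapC {u : E n → ℂ} (hu : ContDiff ℝ 2 u) : Continuous (lapC u) := by
  unfold lapC
  apply continuous_finsetSum
  intro i _
  exact ((contDiff_pd hu _).continuous_fderiv (by simp)).clm_apply continuous_const

theorem continuous_eulC {u : E n → ℂ} (hu : ContDiff ℝ 1 u) :
    Continuous (fun x => fderiv ℝ u x x) :=
  (hu.continuous_fderiv (by simp)).clm_apply continuous_id

theorem momC_eq_re_im {u : E n → ℂ} (hu : Continuous u) (h : MvPolynomial (Fin n) ℝ) :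
    momC u h = fun r => (mom (fun x => (u x).re) h r : ℂ) +
      (mom (fun x => (u x).im) h r : ℂ) * Complex.I := by
  funext r
  apply Complex.ext
  · rw [momC_re (contSph_of_continuous hu r)]; simp
  · rw [momC_im (contSph_of_continuous hu r)]; simp

theorem deriv_re_im {p q : ℝ → ℝ} {r : ℝ} (hp : DifferentiableAt ℝ p r)
    (hq : DifferentiableAt ℝ q r) :
    deriv (fun r => (p r : ℂ) + (q r : ℂ) * Complex.I) r =
      ((deriv p r : ℝ) : ℂ) + ((deriv q r : ℝ) : ℂ) * Complex.I := by
  have e1 : HasDerivAt (fun r => (p r : ℂ)) ((deriv p r : ℝ) : ℂ) r := hp.hasDerivAt.ofReal_comp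
  have e2 : HasDerivAt (fun r => (q r : ℂ)) ((deriv q r : ℝ) : ℂ) r := hq.hasDerivAt.ofReal_comp
  exact (e1.add (e2.mul_const _)).deriv

theorem contDiff_re {u : E n → ℂ} {k : WithTop ℕ∞} (hu : ContDiff ℝ k u) :
    ContDiff ℝ k (fun x => (u x).re) :=
  Complex.reCLM.contDiff.comp hu

theorem contDiff_im {u : E n → ℂ} {k : WithTop ℕ∞} (hu : ContDiff ℝ k u) :
    ContDiff ℝ k (fun x => (u x).im) :=
  Complex.imCLM.contDiff.comp hu

/-- the moment of `x · ∇ u` -/
theorem momC_eul {u : E n → ℂ} (hu : ContDiff ℝ 1 u) (h : MvPolynomial (Fin n) ℝ) (r : ℝ) :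
    momC (BU.eul u) h r = r * deriv (momC u h) r := by
  have hM1 : ContDiff ℝ 1 (mom (fun x => (u x).re) h) :=
    contDiff_mom_fin (k := 1) (by exact_mod_cast contDiff_re hu) h
  have hM2 : ContDiff ℝ 1 (mom (fun x => (u x).im) h) :=
    contDiff_mom_fin (k := 1) (by exact_mod_cast contDiff_im hu) h
  have hc := contSph_of_continuous (continuous_eulC hu) r
  have e1 : (fun x => (fderiv ℝ u x x).re) = fun x => fderiv ℝ (fun y => (u y).re) x x := by
    funext x
    exact (fderiv_re (hu.differentiable (by simp) x) _).symm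
  have e2 : (fun x => (fderiv ℝ u x x).im) = fun x => fderiv ℝ (fun y => (u y).im) x x := by
    funext x
    exact (fderiv_im (hu.differentiable (by simp) x) _).symm
  have e0 : BU.eul u = fun x => fderiv ℝ u x x := rfl
  rw [e0, momC_eq_re_im hu.continuous h, deriv_re_im (hM1.differentiable (by simp) r)
    (hM2.differentiable (by simp) r)]
  have f1 := deriv_mom_fin (contDiff_re hu) h r
  have f2 := deriv_mom_fin (contDiff_im hu) h r
  apply Complex.ext
  · rw [momC_re hc, e1, ← f1]; simp
  · rw [momC_im hc, e2, ← f2]; simp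

/-- the moment of the Laplacian -/
theorem momC_lap [NeZero n] (hn : 2 ≤ n) {l : ℕ} {h : MvPolynomial (Fin n) ℝ}
    (hh : Harm l h) {u : E n → ℂ} (hu : ContDiff ℝ 2 u) {r : ℝ} (hr : 0 < r) :
    momC (BU.lap u) h r = BU.lapl n l (momC u h) r := by
  have hM1 : ContDiff ℝ 2 (mom (fun x => (u x).re) h) :=
    contDiff_mom_fin (k := 2) (by exact_mod_cast contDiff_re hu) h
  have hM2 : ContDiff ℝ 2 (mom (fun x => (u x).im) h) :=
    contDiff_mom_fin (k := 2) (by exact_mod_cast contDiff_im hu) h
  have hder : ∀ {p : ℝ → ℝ}, ContDiff ℝ 2 p → ContDiff ℝ 1 (deriv p) := by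
    intro p hp
    have h1 : ContDiff ℝ ((1 : WithTop ℕ∞) + 1) p := by
      have : (1 : WithTop ℕ∞) + 1 = 2 := by norm_num
      rw [this]; exact hp
    exact (contDiff_succ_iff_deriv.1 h1).2.2
  have hc := contSph_of_continuous (continuous_lapC hu) r
  have e1 : (fun x => (lapC u x).re) = lap (fun y => (u y).re) := funext (lapC_re_fin hu)
  have e2 : (fun x => (lapC u x).im) = lap (fun y => (u y).im) := funext (lapC_im_fin hu)
  have hd1 : deriv (momC u h) = fun r => ((deriv (mom (fun x => (u x).re) h) r : ℝ) : ℂ) +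
      ((deriv (mom (fun x => (u x).im) h) r : ℝ) : ℂ) * Complex.I := by
    funext s
    rw [momC_eq_re_im hu.continuous h]
    exact deriv_re_im (hM1.differentiable (by simp) s) (hM2.differentiable (by simp) s)
  have hd2 : deriv (deriv (momC u h)) r =
      ((deriv (deriv (mom (fun x => (u x).re) h)) r : ℝ) : ℂ) +
      ((deriv (deriv (mom (fun x => (u x).im) h)) r : ℝ) : ℂ) * Complex.I := by
    rw [hd1]
    exact deriv_re_im ((hder hM1).differentiable (by simp) r)
      ((hder hM2).differentiable (by simp) r)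
  have f1 := lap_mom_fin hn hh (contDiff_re hu) hr
  have f2 := lap_mom_fin hn hh (contDiff_im hu) hr
  have g1 : (((n : ℂ) - 1) / r) = (((n - 1) / r : ℝ) : ℂ) := by push_cast; ring
  have g2 : ((l : ℂ) * ((l : ℂ) + n - 2) / (r : ℂ) ^ 2) = (((l * (l + n - 2)) / r ^ 2 : ℝ) : ℂ) := by
    push_cast; ring
  rw [← lapC_eq]
  unfold BU.lapl
  rw [hd2, hd1, g1, g2, momC_eq_re_im hu.continuous h]
  apply Complex.ext
  · rw [momC_re hc, e1, f1]
    generalize ((n : ℝ) - 1) / r = A
    generalize ((l : ℝ) * (l + n - 2)) / r ^ 2 = B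
    simp
  · rw [momC_im hc, e2, f2]
    generalize ((n : ℝ) - 1) / r = A
    generalize ((l : ℝ) * (l + n - 2)) / r ^ 2 = B
    simp

end Vale.Agent.P139.H889
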