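import Vale.Agent.P139.H889.Fin2

/-!
Radial mode stability implies mode stability.
-/

set_option linter.all false

namespace Vale.Agent.P139.H889

open MeasureTheory Set Metric Filter Topology MvPolynomial
open Vale.Agent.P225 (E sig sph gr divg pev pgrad plap Harm flux)
open scoped ContDiff ComplexConjugate

variable {n : ℕ}

theorem momC_poly_sum {u : E n → ℂ} {r : ℝ} (hu : ContSph u r) {ι : Type*} (s : Finset ι)
    (b : ι → ℝ) (k : ι → MvPolynomial (Fin n) ℝ) {h : MvPolynomial (Fin n) ℝ}
    (hk : ∀ x : E n, pev h x = ∑ i ∈ s, b i * pev (k i) x) :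
    momC u h r = ∑ i ∈ s, (b i : ℂ) * momC u (k i) r := by
  unfold momC
  simp only [← integral_const_mul]
  rw [← integral_finsetSum]
  · congr 1
    funext θ
    rw [hk]
    push_cast
    rw [Finset.mul_sum]
    exact Finset.sum_congr rfl fun i _ => by ring
  · intro i _
    exact (momC_int hu (k i)).const_mul _

theorem pev_one (x : E n) : pev (1 : MvPolynomial (Fin n) ℝ) x = 1 := by simp [pev]

/-- moments of radial functions -/
theorem momC_radial (φ : ℝ → ℂ) (h : MvPolynomial (Fin n) ℝ) {r : ℝ} (hr : 0 ≤ r) :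
    momC (fun x => φ ‖x‖) h r = φ r * momC (fun _ => 1) h r := by
  have := momC_radial_mul φ (fun _ => 1) h hr
  rw [← this]
  congr 1
  funext x
  ring

theorem momC_one_one (r : ℝ) : momC (n := n) (fun _ => 1) 1 r = (kap n : ℂ) := by
  unfold momC kap
  rw [← integral_complex_ofReal]
  congr 1
  funext θ
  rw [pev_one]; simp

theorem momC_one_orth [NeZero n] (hn : 2 ≤ n) {l : ℕ} (hl : l ≠ 0) {h : MvPolynomial (Fin n) ℝ}
    (hh : Harm l h) (r : ℝ) : momC (n := n) (fun _ => 1) h r = 0 := by
  have h2 := Vale.Agent.P225.harm_orth hn hl hh harm_one_const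
  unfold sph at h2
  simp only [one_smul, pev_one, mul_one] at h2
  unfold momC
  have h3 : ∫ θ : sphere (0 : E n) 1, ((pev h (θ : E n) : ℝ) : ℂ) ∂(sig n) =
      ((∫ θ : sphere (0 : E n) 1, pev h (θ : E n) ∂(sig n) : ℝ) : ℂ) := integral_complex_ofReal
  simp only [one_mul]
  rw [h3, h2]; simp

theorem momC_coord (j : Fin n) (φ : ℝ → ℂ) (h : MvPolynomial (Fin n) ℝ) {r : ℝ} (hr : 0 ≤ r) :
    momC (fun x => (x j : ℂ) * φ ‖x‖) h r =
      r * φ r * ((∫ θ : sphere (0 : E n) 1, pev (X j) (θ : E n) * pev h (θ : E n) ∂(sig n) : ℝ) : ℂ) := by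
  have h1 : momC (fun x => (x j : ℂ) * φ ‖x‖) h r =
      momC (fun x => φ ‖x‖ * (x j : ℂ)) h r := by
    congr 1
    funext x
    ring
  rw [h1, momC_radial_mul φ (fun x => (x j : ℂ)) h hr, mul_comm (r : ℂ), mul_assoc]
  congr 1
  unfold momC
  rw [← integral_complex_ofReal, ← integral_const_mul]
  congr 1
  funext θ
  rw [pev_X]
  simp
  ring

theorem coord_orth [NeZero n] (hn : 2 ≤ n) (j : Fin n) {l : ℕ} (hl : l ≠ 1)
    {h : MvPolynomial (Fin n) ℝ} (hh : Harm l h) :
    ∫ θ : sphere (0 : E n) 1, pev (X j) (θ : E n) * pev h (θ : E n) ∂(sig n) = 0 := by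
  have h2 := Vale.Agent.P225.harm_orth hn (Ne.symm hl) (harm_X j) hh
  unfold sph at h2
  simpa only [one_smul] using h2

theorem coord_coord [NeZero n] (hn : 2 ≤ n) (i j : Fin n) :
    ∫ θ : sphere (0 : E n) 1, pev (X i) (θ : E n) * pev (X j) (θ : E n) ∂(sig n) =
      if i = j then kap n / n else 0 := by
  rw [← int_coord_mul hn i j]
  congr 1
  funext θ
  rw [pev_X, pev_X]

theorem eq_of_ne_zero [NeZero n] {u v : E n → ℂ} (hu : Continuous u) (hv : Continuous v)
    (h : ∀ x, x ≠ 0 → u x = v x) : u = v := by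
  have hne : Nontrivial (E n) := by
    have : 0 < n := Nat.pos_of_ne_zero (NeZero.ne n)
    have : Nonempty (Fin n) := ⟨⟨0, this⟩⟩
    infer_instance
  have hd : Dense ({0}ᶜ : Set (E n)) := dense_compl_singleton 0
  exact hu.ext_on hd hv (fun x hx => h x hx)

theorem eq_zero_of_moments [NeZero n] (hn : 2 ≤ n) {u : E n → ℂ} (hu : Continuous u)
    (h0 : ∀ l : ℕ, ∀ h : MvPolynomial (Fin n) ℝ, Harm l h → ∀ r > 0, momC u h r = 0) :
    ∀ x, u x = 0 := by
  have := eq_of_ne_zero hu continuous_const (v := fun _ => 0) (fun x hx =>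
    complete hn (norm_pos_iff.2 hx) (contSph_of_continuous hu _)
      (fun l h hh => h0 l h hh ‖x‖ (norm_pos_iff.2 hx)) x rfl)
  intro x
  exact congrFun this x

/-- reconstruction, degree zero -/
theorem reconstruct0 [NeZero n] (hn : 2 ≤ n) {u u0 : E n → ℂ} (hu : Continuous u)
    (hu0 : Continuous u0) {ψ : ℝ → ℂ} (hψ : ∀ x, x ≠ 0 → u0 x = ψ ‖x‖) {c : ℂ}
    (h1 : ∀ l : ℕ, l ≠ 0 → ∀ h : MvPolynomial (Fin n) ℝ, Harm l h → ∀ r > 0, momC u h r = 0)
    (h2 : ∀ r > 0, momC u 1 r = c * ψ r) : ∀ x, u x = (c / kap n) * u0 x := by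
  have hk : (kap n : ℂ) ≠ 0 := by exact_mod_cast (kap_pos (n := n)).ne'
  have hm : ∀ (h : MvPolynomial (Fin n) ℝ) (r : ℝ), 0 < r →
      momC (fun x => (c / kap n) * u0 x) h r = (c / kap n) * (ψ r * momC (fun _ => 1) h r) := by
    intro h r hr
    rw [momC_const_mul, ← momC_radial ψ h hr.le]
    congr 1
    apply momC_congr
    intro x hx
    rw [abs_of_pos hr] at hx
    exact hψ x (by rintro rfl; rw [norm_zero] at hx; exact hr.ne hx)
  have hcc : Continuous fun x => (c / kap n) * u0 x := continuous_const.mul hu0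
  have hz := eq_zero_of_moments hn (hu.sub hcc) (by
    intro l h hh r hr
    have e1 : momC (u - fun x => (c / kap n) * u0 x) h r =
        momC u h r - momC (fun x => (c / kap n) * u0 x) h r :=
      momC_sub (contSph_of_continuous hu r) (contSph_of_continuous hcc r) h
    rw [e1, hm h r hr]
    rcases eq_or_ne l 0 with hl | hl
    · subst hl
      obtain ⟨a, ha⟩ := harm_zero_eq hh
      have e2 : ∀ v : E n → ℂ, Continuous v → momC v h r = (a : ℂ) * momC v 1 r := by
        intro v hv
        have := momC_poly_sum (contSph_of_continuous hv r) (Finset.univ : Finset Unit)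
          (fun _ => a) (fun _ => (1 : MvPolynomial (Fin n) ℝ)) (h := h) (by
            intro x; rw [ha]; simp [pev_one])
        simpa using this
      rw [e2 u hu, e2 (fun _ => 1) continuous_const, h2 r hr, momC_one_one]
      field_simp
      ring
    · rw [h1 l hl h hh r hr, momC_one_orth hn hl hh]
      ring)
  intro x
  exact sub_eq_zero.1 (hz x)

/-- reconstruction, degree one -/
theorem reconstruct1 [NeZero n] (hn : 2 ≤ n) {u : E n → ℂ} (hu : Continuous u) {φ : ℝ → ℂ}
    {u0 : Fin n → E n → ℂ} (hu0 : ∀ j, Continuous (u0 j))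
    (hφ : ∀ j x, x ≠ 0 → u0 j x = (x j : ℂ) * φ ‖x‖) {c : Fin n → ℂ}
    (h1 : ∀ l : ℕ, l ≠ 1 → ∀ h : MvPolynomial (Fin n) ℝ, Harm l h → ∀ r > 0, momC u h r = 0)
    (h2 : ∀ j, ∀ r > 0, momC u (X j) r = c j * (r * φ r)) :
    ∀ x, u x = ∑ j, (c j * (n / kap n)) * u0 j x := by
  have hk : (kap n : ℂ) ≠ 0 := by exact_mod_cast (kap_pos (n := n)).ne'
  have hn0 : (n : ℂ) ≠ 0 := by exact_mod_cast (NeZero.ne n)
  have hm : ∀ (j : Fin n) (h : MvPolynomial (Fin n) ℝ) (r : ℝ), 0 < r →
      momC (u0 j) h r = r * φ r *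
        ((∫ θ : sphere (0 : E n) 1, pev (X j) (θ : E n) * pev h (θ : E n) ∂(sig n) : ℝ) : ℂ) := by
    intro j h r hr
    rw [← momC_coord j φ h hr.le]
    apply momC_congr
    intro x hx
    rw [abs_of_pos hr] at hx
    exact hφ j x (by rintro rfl; rw [norm_zero] at hx; exact hr.ne hx)
  have hcc : Continuous fun x => ∑ j, (c j * (n / kap n)) * u0 j x :=
    continuous_finsetSum _ fun j _ => continuous_const.mul (hu0 j)
  have hms : ∀ (h : MvPolynomial (Fin n) ℝ) (r : ℝ),
      momC (fun x => ∑ j, (c j * (n / kap n)) * u0 j x) h r =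
        ∑ j, (c j * (n / kap n)) * momC (u0 j) h r := by
    intro h r
    unfold momC
    simp only [← integral_const_mul]
    rw [← integral_finsetSum]
    · congr 1
      funext θ
      rw [Finset.sum_mul]
      exact Finset.sum_congr rfl fun j _ => by ring
    · intro j _
      exact (momC_int (contSph_of_continuous (hu0 j) r) h).const_mul _
  have hz := eq_zero_of_moments hn (hu.sub hcc) (by
    intro l h hh r hr
    have e1 : momC (u - fun x => ∑ j, (c j * (n / kap n)) * u0 j x) h r =
        momC u h r - momC (fun x => ∑ j, (c j * (n / kap n)) * u0 j x) h r :=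
      momC_sub (contSph_of_continuous hu r) (contSph_of_continuous hcc r) h
    rw [e1, hms]
    rcases eq_or_ne l 1 with hl | hl
    · subst hl
      obtain ⟨b, hb⟩ := harm_one_eq hh
      have e2 : ∀ v : E n → ℂ, Continuous v →
          momC v h r = ∑ i, (b i : ℂ) * momC v (X i) r := by
        intro v hv
        exact momC_poly_sum (contSph_of_continuous hv r) (Finset.univ : Finset (Fin n))
          b (fun i => X i) (h := h) (by
            intro x; rw [hb]; simp only [pev_X])
      rw [e2 u hu]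
      have e3 : ∀ j : Fin n, momC (u0 j) h r = (b j : ℂ) * (r * φ r * (kap n / n)) := by
        intro j
        rw [e2 _ (hu0 j), Finset.sum_eq_single j]
        · rw [hm j (X j) r hr, coord_coord hn, if_pos rfl]
          push_cast
          ring
        · intro i _ hij
          rw [hm j (X i) r hr, coord_coord hn, if_neg (Ne.symm hij)]
          simp
        · intro hj
          exact absurd (Finset.mem_univ j) hj
      simp only [e3, h2 _ r hr]
      rw [← Finset.sum_sub_distrib]
      apply Finset.sum_eq_zero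
      intro j _
      field_simp
      ring
    · rw [h1 l hl h hh r hr, Finset.sum_eq_zero, sub_zero]
      intro j _
      rw [hm j h r hr, coord_orth hn j hl hh]
      simp)
  intro x
  exact sub_eq_zero.1 (hz x)

end Vale.Agent.P139.H889
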